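import Vale.Agent.P141.H989.CrB2
import Vale.Agent.P141.H886.SumU
import Vale.Agent.P141.H736.LbcX

/-!
# P141, line (A), increasing part: the numbers `CRB` and `BRN` of `H736.X_le` at class data

In the form `H886.SumU 1`, for any marks inside the affected squares.
-/

namespace Vale.Agent.P141.H989.CrB

open Finset Matrix
open Vale.Agent.P141.PL (Pt iv cb cx ix mem_iv ix_ix)
open Vale.Agent.P141.PL.H315 (Tri A2 avg)
open Vale.Agent.P141.H48 (US ES BSl sst)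
open Vale.Agent.P141.H401 (StQ qB qC)
open Vale.Agent.P141.H408
open Vale.Agent.P141.H457 (rs)
open Vale.Agent.P141.H505.Sk1 (W3 eT Ch)
open Vale.Agent.P141.H677 (cP rt KT tr_T)
open Vale.Agent.P141.H736 (wE)
open Vale.Agent.P141.H808 (cS aS thS)
open Vale.Agent.P141.H886 (NumF SumQ SumU)
open Vale.Agent.P141.H989.FX

noncomputable section

open scoped Classical

/-- the moving part of the weight at `x0` -/
def TT {ι : Type} [Fintype ι] [DecidableEq ι] (p : H401.Num) (s r : ℝ) (o : ℤ) (K : ℕ) (x : Pt)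
    (u : ℤ → ℤ → ι → ℝ) (x0 : ℤ) (k : ℕ) (x1 m : ℤ) : Matrix ι ι ℝ :=
  H652.Th (p.lam s r) K (cx K x).2.1 (KT (p.lam s r) u x1) (o - 2) x0 x1 k m

theorem wE_eT {ι : Type} [Fintype ι] [DecidableEq ι] (p : H401.Num) (s r : ℝ) (o : ℤ) (K : ℕ)
    (x : Pt) (u : ℤ → ℤ → ι → ℝ) (x0 : ℤ) (k : ℕ) (f : ℤ → ℤ → ι → ℝ) (x1 z : ℤ) :
    wE (beI p r) (TT p s r o K x u x0) k f x1 z = eT f (thS p s r o K x u x0) k x1 z := rfl

/-- marks of row pieces: `x0`, scale, point, cell of `x1` -/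
abbrev MarkF : Type 1 := ∀ (ι : Type) [Fintype ι] [DecidableEq ι] (p : H401.Num) (n : ℕ) (ez : ℝ)
  (F1 F2 F3 : ℕ → Pt → ℝ) (o : ℤ) (K : ℕ) (x : Pt) (s r : ℝ) (U : Tri) (g : ℤ → ℤ → ℝ)
  (u v : ℤ → ℤ → ι → ℝ) (Q1 Q2 Q3 : ℕ → Pt → Prop), ℤ → ℕ → ℤ → ℤ → Prop

/-- **`CRB`** of `H736.X_le`, first slot marked by `Pb` -/
def fCRB (Pb : MarkF) : NumF := fun ι _ _ p n ez F1 F2 F3 o K x s r U g u v Q1 Q2 Q3 x0 =>
  ∑ k ∈ Ico 0 K, ∑ x1 ∈ iv K (cx K x).1, ∑ z ∈ iv K (cx K x).2.2,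
    (if ∃ w, ix (k + 1) w = cP o x0 (k + 1) - ix (k + 1) x1 - ix (k + 1) z ∧
        Pb ι p n ez F1 F2 F3 o K x s r U g u v Q1 Q2 Q3 x0 k w (ix k x1) then
      wE (beI p r) (TT p s r o K x u x0) k (cS p ez U K v F2 x0 (k + 1)) x1 z else 0)

/-- **`BRN`** of `H736.X_le`, second slot marked by `Pc` -/
def fBRN (Pc : MarkF) : NumF := fun ι _ _ p n ez F1 F2 F3 o K x s r U g u v Q1 Q2 Q3 x0 =>
  ∑ k ∈ Ico 0 K, ∑ x1 ∈ iv K (cx K x).1, ∑ z ∈ iv K (cx K x).2.2,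
    wE (beI p r) (TT p s r o K x u x0) k
      (rs (Pc ι p n ez F1 F2 F3 o K x s r U g u v Q1 Q2 Q3 x0 k) k
        (cS p ez U K v F2 x0 (k + 1))) x1 z

/-- **`CRB` at class data.** -/
theorem sumU_CRB {Pb : MarkF}
    (hPb : ∀ (ι : Type) [Fintype ι] [DecidableEq ι] (p : H401.Num) (n : ℕ) (ez : ℝ)
      (F1 F2 F3 : ℕ → Pt → ℝ) (o : ℤ) (K : ℕ) (x : Pt) (s r : ℝ) (U : Tri) (g : ℤ → ℤ → ℝ)
      (u v : ℤ → ℤ → ι → ℝ) (Q1 Q2 Q3 : ℕ → Pt → Prop) (x0 : ℤ) (k : ℕ) (w h : ℤ), K ≤ n →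
      k < K → BSl n ez p.cP F2 Q2 → BSl n p.e p.cP F3 Q3 →
      Pb ι p n ez F1 F2 F3 o K x s r U g u v Q1 Q2 Q3 x0 k w h →
      qB p U K Q3 k (ix k x0) h (ix k w)) :
    SumU 1 (fCRB Pb) := by
  refine PairQ.toU ?_
  intro a ha ha1
  obtain ⟨es, hes, H⟩ := crB 3 a ha ha1
  refine ⟨es, hes, fun e0 he0 he0' => ?_⟩
  obtain ⟨k8s, hk8s, H⟩ := H e0 he0 he0'
  refine ⟨k8s, hk8s, fun k8 hk8 hk8' => ?_⟩
  obtain ⟨k3s, hk3s, H⟩ := H k8 hk8 hk8'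
  refine ⟨k3s, hk3s, fun k3 hk3 hk3' δ hδ => ?_⟩
  obtain ⟨c1, d0, hc1, hd0, H⟩ := H k3 hk3 hk3' δ hδ
  refine ⟨c1, d0, hc1, hd0, fun c hc hcc d hd hdd Kt e cq L hK he hcq hL => ?_⟩
  obtain ⟨C, hC, H⟩ := H c hc hcc d hd hdd Kt e cq L hK he hcq hL
  refine ⟨C, hC, ?_⟩
  intro t ht ht1 n ez F1 F2 F3 h1 h3 h2 o ho K hKn x ι _ _ s r U g u v hs hr hcls Q1 Q2 Q3 q1 q2 q3
    hez
  have h4 := H t ht ht1 n ez F1 F2 F3 h1 h3 h2 o ho K hKn x ι s r U g u v hs hr hcls Q1 Q2 Q3 q1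
    q2 q3 hez
  unfold H886.SumQ
  rw [one_mul]
  refine le_trans ?_ h4
  refine sum_le_sum fun t0 _ => sum_le_sum fun x0 _ => ?_
  refine sum_le_sum fun k hk => sum_le_sum fun x1 _ => sum_le_sum fun z _ => ?_
  have hkK : k < K := (mem_Ico.1 hk).2
  have h0 := H808.eT_nonneg (fun x1 k m => H808.thS_pd
    (p := ⟨a, e0, k8, k3, c, d, Kt, e, cq, L, 1, t⟩) ht hs hr o K x u x0 x1 k m)
    (cS ⟨a, e0, k8, k3, c, d, Kt, e, cq, L, 1, t⟩ ez U K v F2 x0 (k + 1)) k x1 z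
  split_ifs with g1 g2
  · exact le_rfl
  · exfalso
    obtain ⟨w, hw, hp⟩ := g1
    exact g2 ⟨ix k w, near_win ho hw, hPb ι _ n ez F1 F2 F3 o K x s r U g u v Q1 Q2 Q3 x0 k w _
      hKn hkK q2 q3 hp⟩
  · exact h0
  · exact le_rfl

/-- **`BRN` at class data.** -/
theorem sumU_BRN {Pc : MarkF}
    (hPc : ∀ (ι : Type) [Fintype ι] [DecidableEq ι] (p : H401.Num) (n : ℕ) (ez : ℝ)
      (F1 F2 F3 : ℕ → Pt → ℝ) (o : ℤ) (K : ℕ) (x : Pt) (s r : ℝ) (U : Tri) (g : ℤ → ℤ → ℝ)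
      (u v : ℤ → ℤ → ι → ℝ) (Q1 Q2 Q3 : ℕ → Pt → Prop) (x0 : ℤ) (k : ℕ) (z h : ℤ), K ≤ n →
      k < K → BSl n ez p.cP F2 Q2 → BSl n p.e p.cP F3 Q3 →
      Pc ι p n ez F1 F2 F3 o K x s r U g u v Q1 Q2 Q3 x0 k z h →
      qC p U K Q2 k (ix k x0) (ix k z) h) :
    SumU 1 (fBRN Pc) := by
  refine PairQ.toU ?_
  intro a _ _
  refine ⟨1, one_pos, fun e0 he0 he01 => ⟨1, one_pos, fun k8 _ _ => ⟨1, one_pos,
    fun k3 _ _ δ hδ => ?_⟩⟩⟩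
  obtain ⟨C2, hC2, hJ⟩ := H808.exists_levels (δ := δ / 2) (by positivity)
  refine ⟨e0 / 2, δ / 2, by positivity, by positivity,
    fun c _ hcc d hd hdd Kt e cq L hK he hcq hL => ?_⟩
  set B : ℝ := (cq + 2) / 4 with hB
  have hB0 : 0 ≤ B := by positivity
  obtain ⟨h, hh, hh2⟩ : ∃ h : ℕ, 1 ≤ h ∧ 2 * (4 * (4 * B)) ≤ (h : ℝ) := by
    refine ⟨⌈2 * (4 * (4 * B))⌉₊ + 1, by omega, ?_⟩
    push_cast
    have := Nat.le_ceil (2 * (4 * (4 * B)))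
    linarith
  refine ⟨3 * (16 * B + 4 * (h + 1) * C2 * L + 256 * B), by positivity, ?_⟩
  intro t ht ht1 n ez F1 F2 F3 _ _ _ o ho K hKn x ι _ _ s r U g u v hs hr hcls Q1 Q2 Q3 q1 q2 q3
    hez
  have hr0 : 0 < r := by linarith
  obtain ⟨J, hJ1, hJ2⟩ := hJ (t / r) (div_pos ht hr0) ((div_le_one hr0).2 (ht1.trans hr))
  set p : H401.Num := ⟨a, e0, k8, k3, c, d, Kt, e, cq, L, 1, t⟩ with hp
  have hq2 : H460.QPack n (fun k q => H576.QD (fun k x y => sst p.Lm U.2.1 K k x y) Q2 k q.1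
      q.2.1 q.2.2) (cq + 2) := fun x0 K' hK' r s =>
    H576.QD_pack (H576.Dd_sst p.Lm U.2.1 K) q2 x0 hK' r s
  have hA : H28.AffI.GP (fun k q => H576.QD (fun k x y => sst p.Lm U.2.1 K k x y) Q2 k q.1
      q.2.1 q.2.2) K (cq + 2) := fun k hk m => H460.pack2 hq2 (hk.trans hKn) m
  rw [show cq + 2 = 4 * B by rw [hB]; ring] at hA
  have h4 := num_gen (p := p) (o := o) hKn hB0 q2 hez hA ht ht1 hs hr he0 he01 hcc hdd hd hL
    hcls.toCls hC2 hh hh2 hJ1 hJ2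
  unfold H886.SumQ
  rw [one_mul]
  refine le_trans ?_ h4
  refine sum_le_sum fun t0 _ => sum_le_sum fun x0 _ => ?_
  refine sum_le_sum fun k hk => sum_le_sum fun x1 _ => sum_le_sum fun z _ => ?_
  have hkK : k < K := (mem_Ico.1 hk).2
  have h0 := H808.eT_nonneg (fun x1 k m => H808.thS_pd (p := p) ht hs hr o K x u x0 x1 k m)
    (cS p ez U K v F2 x0 (k + 1)) k x1 z
  by_cases g1 : Pc ι p n ez F1 F2 F3 o K x s r U g u v Q1 Q2 Q3 x0 k z (ix k x1)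
  · have g2 := hPc ι p n ez F1 F2 F3 o K x s r U g u v Q1 Q2 Q3 x0 k z _ hKn hkK q2 q3 g1
    refine le_trans ?_ (le_of_eq (if_pos g2).symm)
    unfold H736.wE H457.rs
    rw [if_pos g1]
    exact le_rfl
  · unfold H736.wE H457.rs
    rw [if_neg g1, zero_dotProduct]
    split_ifs
    · exact h0
    · exact le_rfl

/-- the changes of the first slot on row pieces -/
def mB : MarkF := fun _ _ _ p _ _ _ _ F3 _ K _ s r U _ u _ _ _ Q3 x0 k w h =>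
  ∃ x ∈ iv k h, H652.bS p s r U K u F3 Q3 x0 (k + 1) x w ≠ H652.bS p s r U K u F3 Q3 x0 k x w

/-- the changes of the second slot on row pieces -/
def mC : MarkF := fun _ _ _ p _ ez _ F2 _ _ K _ _ _ U _ _ v _ _ _ x0 k z h =>
  ∃ x ∈ iv k h, cS p ez U K v F2 x0 (k + 1) x z ≠ cS p ez U K v F2 x0 k x z

/-- **`CRB` for the changes of `bS`.** -/
theorem sumU_mB : SumU 1 (fCRB mB) :=
  sumU_CRB fun _ _ _ _ _ _ _ _ _ _ _ _ _ _ _ _ _ _ _ _ _ _ _ _ _ _ hk _ _ h => PbS_aff hk h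

/-- **`BRN` for the changes of `cS`.** -/
theorem sumU_mC : SumU 1 (fBRN mC) :=
  sumU_BRN fun _ _ _ _ _ _ _ _ _ _ _ _ _ _ _ _ _ _ _ _ _ _ _ z _ hK hk h2 _ h => by
    obtain ⟨a, ha, hne⟩ := h
    exact chC_aff h2 hK hk ⟨a, ha, z, mem_iv.2 rfl, hne⟩

end

end Vale.Agent.P141.H989.CrB
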