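import Vale.Agent.P141.H808.NumCA
import Vale.Agent.P141.H28.AffI
import Vale.Agent.P141.H460.AffFam
import Vale.Agent.P141.H816.FDatM

/-!
# P141, line (A), increasing part: births and cross births of the stack `W ^ (1/2) C`

`GW_W3_le` : from the plane sums to the points; `aff_cls` : the energy of the stack at affected
cubes, class data; `fCross`, `fBorn` : the fields of `H808.NumCA`.
-/

namespace Vale.Agent.P141.H989.FX

open Finset Matrix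
open Vale.Agent.P075 (Ix val)
open Vale.Agent.P141.PL (Pt iv cb cx ix mem_iv ix_ix)
open Vale.Agent.P141.PL.H315 (Tri A2 avg)
open Vale.Agent.P141.H48 (US ES BSl sst)
open Vale.Agent.P141.H103 (GW)
open Vale.Agent.P141.H305 (Cls ClsM kapM)
open Vale.Agent.P141.H401 (StQ cA mC qA qC)
open Vale.Agent.P141.H408
open Vale.Agent.P141.H420 (Tr)
open Vale.Agent.P141.H460 (QPack GPack nAff nA1 nA3 Lin)
open Vale.Agent.P141.H505.Sk1 (W3 eT Ch)
open Vale.Agent.P141.H576 (QD Dd_sst QD_pack)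
open Vale.Agent.P141.H652 (Th Th_psd)
open Vale.Agent.P141.H677 (KT GT cP rt kF tr_T)
open Vale.Agent.P141.H808 (cS aS thS)

noncomputable section

open scoped Classical

section plane

variable {κ : Type} [Fintype κ] [DecidableEq κ]

/-- trace of the Gram matrix of a node -/
theorem tr_W3 (C : ℤ → ℤ → κ → ℝ) (W : ℤ → ℕ → ℤ → Matrix κ κ ℝ) (k : ℕ) (n m : ℤ) :
    (4 : ℝ) ^ k * (W3 C W k k n m).trace = ∑ x ∈ iv k n, ∑ z ∈ iv k m, eT C W k x z := by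
  unfold W3 Matrix.trace
  simp only [diag_apply]
  have e1 : ∀ j : Ix k, H103.QW k k C (fun x => W x k m) n m j j =
      ((4 : ℝ) ^ k)⁻¹ * ∑ x ∈ iv k n,
        C x (2 ^ k * m + val k j) ⬝ᵥ W x k m *ᵥ C x (2 ^ k * m + val k j) := by
    intro j
    unfold H103.QW
    rw [show (2 : ℝ) ^ k * 2 ^ k = 4 ^ k by rw [← mul_pow]; norm_num]
  rw [sum_congr rfl fun j _ => e1 j, ← mul_sum, mul_inv_cancel_left₀ (by positivity), sum_comm]
  refine sum_congr rfl fun x _ => ?_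
  rw [← PL.H588.sum_iv k m fun z => C x z ⬝ᵥ W x k m *ᵥ C x z]
  refine sum_congr rfl fun z hz => ?_
  unfold eT
  rw [mem_iv.1 hz]

/-- **Plane sums of traces at marked nodes.** -/
theorem GW_W3_le {N k : ℕ} (hk : k ≤ N) (R S T c : ℤ) (A : ℤ → ℤ → ℤ → Prop)
    [∀ a b d, Decidable (A a b d)] (C : ℤ → ℤ → κ → ℝ) (W : ℤ → ℕ → ℤ → Matrix κ κ ℝ) (h0 : ∀ x z, 0 ≤ eT C W k x z) :
    GW N R S T k c (fun n2 n1 m => if A n2 n1 m then (W3 C W k k n1 m).trace else 0) ≤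
      ∑ x ∈ iv N T, ∑ z ∈ iv N S,
        if A (c - ix k z - ix k x) (ix k x) (ix k z) then eT C W k x z else 0 := by
  have h1 : ∀ m, (4 : ℝ) ^ k * ∑ n ∈ iv (N - k) R, (if c - m - n ∈ iv (N - k) T then
      (if A n (c - m - n) m then (W3 C W k k (c - m - n) m).trace else 0) else 0) ≤
      ∑ n1 ∈ iv (N - k) T, if A (c - m - n1) n1 m then
        ∑ x ∈ iv k n1, ∑ z ∈ iv k m, eT C W k x z else 0 := by
    intro m
    rw [mul_sum]
    have e1 : ∀ n ∈ iv (N - k) R, (4 : ℝ) ^ k * (if c - m - n ∈ iv (N - k) T then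
        (if A n (c - m - n) m then (W3 C W k k (c - m - n) m).trace else 0) else 0) =
        if c - m - n ∈ iv (N - k) T then
          (fun n1 => if A (c - m - n1) n1 m then
            ∑ x ∈ iv k n1, ∑ z ∈ iv k m, eT C W k x z else 0) (c - m - n) else 0 := by
      intro n _
      simp only
      rw [show c - m - (c - m - n) = n by ring, ← tr_W3]
      split_ifs <;> simp
    rw [sum_congr rfl e1, ← sum_filter]
    have hi : Set.InjOn (fun n => c - m - n)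
        (((iv (N - k) R).filter fun n => c - m - n ∈ iv (N - k) T) : Set ℤ) := by
      intro x _ y _ h
      simp only at h
      omega
    rw [← sum_image (f := fun n1 => if A (c - m - n1) n1 m then
      ∑ x ∈ iv k n1, ∑ z ∈ iv k m, eT C W k x z else 0) (g := fun n => c - m - n) hi]
    refine sum_le_sum_of_subset_of_nonneg ?_ ?_
    · intro x hx
      obtain ⟨n, hn, rfl⟩ := mem_image.1 hx
      exact (mem_filter.1 hn).2
    · intro n1 _ _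
      split_ifs
      · exact sum_nonneg fun x _ => sum_nonneg fun z _ => h0 x z
      · exact le_rfl
  unfold H103.GW
  rw [mul_sum]
  refine (sum_le_sum fun m _ => h1 m).trans (le_of_eq ?_)
  have e2 : ∀ m, ∑ n1 ∈ iv (N - k) T, (if A (c - m - n1) n1 m then
      ∑ x ∈ iv k n1, ∑ z ∈ iv k m, eT C W k x z else 0) =
      ∑ x ∈ iv N T, ∑ z ∈ iv k m,
        if A (c - ix k z - ix k x) (ix k x) (ix k z) then eT C W k x z else 0 := by
    intro m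
    rw [← H922.iv_iv hk T]
    refine sum_congr rfl fun n1 _ => ?_
    split_ifs with h
    · refine sum_congr rfl fun x hx => sum_congr rfl fun z hz => ?_
      rw [mem_iv.1 hx, mem_iv.1 hz, if_pos h]
    · symm
      refine sum_eq_zero fun x hx => sum_eq_zero fun z hz => ?_
      rw [mem_iv.1 hx, mem_iv.1 hz, if_neg h]
  rw [sum_congr rfl fun m _ => e2 m, sum_comm]
  refine sum_congr rfl fun x _ => ?_
  exact H922.iv_iv hk S _

end plane

section cls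

variable {ι : Type} [Fintype ι] [DecidableEq ι]

/-- the scalar factor of the stack at the time `k + 1`, normalised -/
def Zf (p : H401.Num) (ez : ℝ) (U : Tri) (K : ℕ) (F2 : ℕ → Pt → ℝ) (k : ℕ) (q : Pt) : ℝ :=
  if k < K then (√ez)⁻¹ * kF p.Lm U.2.1 K F2 (k + 1) q else 0

theorem lin_Zf {p : H401.Num} {ez cP : ℝ} {U : Tri} {n K : ℕ} {F2 : ℕ → Pt → ℝ}
    {Q2 : ℕ → Pt → Prop} (hB : BSl n ez cP F2 Q2) (hK : K ≤ n) (hez : 0 < ez) :
    Lin K 1 (Zf p ez U K F2) := by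
  intro k _ m x1 x3
  unfold Zf
  split_ifs with h
  · have h1 := H816.line_kF1 (Λ := p.Lm) hB U.2.1 K (show k < n by omega) m x1 x3
    have h2 : ((√ez)⁻¹) ^ 2 = ez⁻¹ := by rw [inv_pow, Real.sq_sqrt hez.le]
    simp only [mul_pow, h2]
    rw [← mul_sum, inv_mul_le_iff₀ hez]
    linarith
  · simp only [ne_eq, OfNat.ofNat_ne_zero, not_false_eq_true, zero_pow, sum_const_zero]
    positivity

theorem cS_pt (p : H401.Num) (ez : ℝ) (U : Tri) (K : ℕ) (v : ℤ → ℤ → ι → ℝ) (F2 : ℕ → Pt → ℝ)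
    (x0 : ℤ) {k : ℕ} (hk : k < K) (x z : ℤ) :
    cS p ez U K v F2 x0 (k + 1) x z = Zf p ez U K F2 k (x0, x, z) • v x z := by
  have e1 : cS p ez U K v F2 x0 (k + 1) x z = C1 p ez U K v F2 x0 (min (k + 1) K) z x := rfl
  rw [e1, min_eq_left (by omega : k + 1 ≤ K)]
  unfold Zf
  rw [if_pos hk, ← smul_smul]
  rfl

theorem eT_pt (p : H401.Num) (ez : ℝ) (U : Tri) (K : ℕ) (v : ℤ → ℤ → ι → ℝ) (F2 : ℕ → Pt → ℝ)
    (s r : ℝ) (o : ℤ) (x : Pt) (u : ℤ → ℤ → ι → ℝ) (x0 : ℤ) {k : ℕ} (hk : k < K) (x1 z : ℤ) :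
    eT (cS p ez U K v F2 x0 (k + 1)) (thS p s r o K x u x0) k x1 z =
      Zf p ez U K F2 k (x0, x1, z) ^ 2 * (v x1 z ⬝ᵥ (beI p r • (1 : Matrix ι ι ℝ) +
        Th (p.lam s r) K (cx K x).2.1 (KT (p.lam s r) u x1) (o - 2) x0 x1 k (ix k z)) *ᵥ
          v x1 z) := by
  unfold eT
  rw [cS_pt p ez U K v F2 x0 hk, mulVec_smul, smul_dotProduct, dotProduct_smul, smul_eq_mul,
    smul_eq_mul, ← mul_assoc, ← pow_two]
  rfl

/-- the affected cubes of the two faces with index `x₃`, alive -/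
def Af (p : H401.Num) (o : ℤ) (U : Tri) (K : ℕ) (Q1 Q2 : ℕ → Pt → Prop) (k : ℕ) (m : Pt) :
    Prop :=
  k < K ∧ ¬ sst p.Lm U.2.1 K (k + 1) (2 ^ k * m.2.1) (2 ^ k * m.2.2) ∧
    nAff o (fun k q => QD (fun k x y => sst p.Lm U.2.2 K k x y) Q1 k q.1 q.2.1 q.2.2)
      (fun k q => QD (fun k x y => sst p.Lm U.2.1 K k x y) Q2 k q.1 q.2.1 q.2.2)
      (fun _ _ => False) k m

theorem gp_Af {p : H401.Num} {o : ℤ} (ho : o = 1 ∨ o = -1) {U : Tri} {n K : ℕ} {e ez cP : ℝ}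
    {F1 F2 : ℕ → Pt → ℝ} {Q1 Q2 : ℕ → Pt → Prop} (hB1 : BSl n e cP F1 Q1)
    (hB2 : BSl n ez cP F2 Q2) (hK : K ≤ n) :
    H28.AffI.GP (Af p o U K Q1 Q2) K (4 * (cP + 2)) := by
  have q1 : QPack n (fun k q => QD (fun k x y => sst p.Lm U.2.2 K k x y) Q1 k q.1 q.2.1 q.2.2)
      (cP + 2) := fun x0 K' hK' r s => QD_pack (Dd_sst p.Lm U.2.2 K) hB1 x0 hK' r s
  have q2 : QPack n (fun k q => QD (fun k x y => sst p.Lm U.2.1 K k x y) Q2 k q.1 q.2.1 q.2.2)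
      (cP + 2) := fun x0 K' hK' r s => QD_pack (Dd_sst p.Lm U.2.1 K) hB2 x0 hK' r s
  have q3 : QPack n (fun _ _ => False) 0 := by
    intro x0 K' _ r s
    simp
  have h := (H460.gpack_aff q1 q2 q3 ho hK).mono (A' := Af p o U K Q1 Q2) fun k m h => h.2.2
  intro k hk m
  refine (h k hk m).trans (le_of_eq ?_)
  ring

/-- **The energy of the stack on the affected cubes, one root.** -/
theorem aff_one {p : H401.Num} {o : ℤ} (ho : o = 1 ∨ o = -1) {n K : ℕ} (hK : K ≤ n)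
    {e ez cP : ℝ} (hcP : 0 ≤ cP) {F1 F2 : ℕ → Pt → ℝ} {Q1 Q2 : ℕ → Pt → Prop}
    (hB1 : BSl n e cP F1 Q1) (hB2 : BSl n ez cP F2 Q2) (hez : 0 < ez) {x : Pt} {s r P : ℝ}
    {U : Tri} {g : ℤ → ℤ → ℝ} {u v : ℤ → ℤ → ι → ℝ} (ht : 0 < p.t) (hs : 0 < s) (hr : 1 ≤ r)
    (hP : 0 ≤ P) (hc : Cls K x s r P U g u v) {h : ℕ} (hh : 1 ≤ h)
    (hPh : 2 * (4 * (4 * (cP + 2))) ≤ h) (q : ℕ) (t : ℤ) :
    ∑ x0 ∈ iv K t, ∑ k ∈ Ico 0 K, ∑ x1 ∈ iv K (cx K x).1, ∑ z ∈ iv K (cx K x).2.2,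
      (if nAff o (fun k q => QD (fun k x y => sst p.Lm U.2.2 K k x y) Q1 k q.1 q.2.1 q.2.2)
        (fun k q => QD (fun k x y => sst p.Lm U.2.1 K k x y) Q2 k q.1 q.2.1 q.2.2)
        (fun _ _ => False) k (ix k x0, ix k x1, ix k z) then
        eT (cS p ez U K v F2 x0 (k + 1)) (thS p s r o K x u x0) k x1 z else 0) ≤
      (16 * (cP + 2) * (beI p r * p.Lm) +
        4 * ((1 + h * q) * (P / (2 * p.lam s r)) +
          64 * (cP + 2) * p.Lm * (1 / 2) ^ q)) * (s * 8 ^ K) := by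
  have hl := H401.Num.lam_pos (p := p) ht hs hr
  have hΛ : 0 < p.Lm := Real.rpow_pos_of_pos ht _
  have hbe : 0 ≤ beI p r := Real.rpow_nonneg (div_nonneg ht.le (by linarith)) _
  -- the theorem of the affected cells
  have main := H28.AffI.aff_W (M1 := (cx K x).1) (M2 := (cx K x).2.1) (M3 := (cx K x).2.2)
    (G := GT u) (Kq := KT (p.lam s r) u) (fun x1 _ => tr_T hl K u x1)
    (A := Af p o U K Q1 Q2) (cP := 4 * (cP + 2)) (by linarith) (gp_Af ho hB1 hB2 hK)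
    (e := 1) zero_le_one (Z := Zf p ez U K F2) (lin_Zf hB2 hK hez) v
    (τ := 4 * p.Lm * s) (by positivity)
    (by
      intro k _ m h1 h3 hm
      obtain ⟨hkK, hal, -⟩ := hm
      have hA := H816.sq_alive (X := x.1) (Y := x.2.2) hΛ.le hkK (mem_iv.1 h1) (mem_iv.1 h3)
        hc.U_v2 hal
      refine le_trans (sum_le_sum fun a ha => sum_le_sum fun b hb => ?_) hA
      refine hc.v_le a ?_ b ?_
      · exact H576.root_mem hkK.le h1 ha
      · exact H576.root_mem hkK.le h3 hb)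
    (h := h) hh hPh q (o - 2) t (β := beI p r) hbe
  -- the left sides
  set f : ℕ → Pt → ℝ := fun k y => if Af p o U K Q1 Q2 k (cx k y) then Zf p ez U K F2 k y ^ 2 *
    (v y.2.1 y.2.2 ⬝ᵥ (beI p r • (1 : Matrix ι ι ℝ) +
      Th (p.lam s r) K (cx K x).2.1 (KT (p.lam s r) u y.2.1) (o - 2) y.1 y.2.1 k (ix k y.2.2)) *ᵥ
        v y.2.1 y.2.2) else 0 with hf
  have f0 : ∀ k y, 0 ≤ f k y := by
    intro k y
    rw [hf]
    simp only
    split_ifs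
    · refine mul_nonneg (sq_nonneg _) (H420.quad_nonneg ?_ _)
      exact (PosSemidef.one.smul hbe).add (Th_psd (tr_T hl K u y.2.1) (o - 2) y.1 y.2.1 k _)
    · exact le_rfl
  have L1 : ∑ x0 ∈ iv K t, ∑ k ∈ Ico 0 K, ∑ x1 ∈ iv K (cx K x).1, ∑ z ∈ iv K (cx K x).2.2,
      (if nAff o (fun k q => QD (fun k x y => sst p.Lm U.2.2 K k x y) Q1 k q.1 q.2.1 q.2.2)
        (fun k q => QD (fun k x y => sst p.Lm U.2.1 K k x y) Q2 k q.1 q.2.1 q.2.2)
        (fun _ _ => False) k (ix k x0, ix k x1, ix k z) then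
        eT (cS p ez U K v F2 x0 (k + 1)) (thS p s r o K x u x0) k x1 z else 0) ≤
      ∑ k ∈ range (K + 1), ∑ y ∈ cb K (t, (cx K x).1, (cx K x).2.2), f k y := by
    rw [sum_comm]
    have h1 : ∑ k ∈ Ico 0 K, ∑ y ∈ cb K (t, (cx K x).1, (cx K x).2.2), f k y ≤
        ∑ k ∈ range (K + 1), ∑ y ∈ cb K (t, (cx K x).1, (cx K x).2.2), f k y := by
      refine sum_le_sum_of_subset_of_nonneg ?_ fun k _ _ => sum_nonneg fun y _ => f0 k y
      intro k hk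
      rw [mem_Ico] at hk
      rw [mem_range]
      omega
    refine le_trans (sum_le_sum fun k hk => ?_) h1
    have hkK : k < K := (mem_Ico.1 hk).2
    have e1 : ∑ y ∈ cb K (t, (cx K x).1, (cx K x).2.2), f k y =
        ∑ x0 ∈ iv K t, ∑ x1 ∈ iv K (cx K x).1, ∑ z ∈ iv K (cx K x).2.2, f k (x0, x1, z) := by
      unfold PL.cb
      rw [sum_product]
      refine sum_congr rfl fun x0 _ => ?_
      rw [sum_product]
    rw [e1]
    refine sum_le_sum fun x0 _ => sum_le_sum fun x1 _ => sum_le_sum fun z _ => ?_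
    split_ifs with hn
    · by_cases hst : sst p.Lm U.2.1 K (k + 1) (2 ^ k * ix k x1) (2 ^ k * ix k z)
      · have hst' : sst p.Lm U.2.1 K (k + 1) x1 z := by
          have m1 : x1 ∈ iv k (ix k x1) := mem_iv.2 rfl
          have m2 : z ∈ iv k (ix k z) := mem_iv.2 rfl
          exact (H769.sst_congr (H769.ix_of_le (Nat.le_succ k) (H769.corner k m1))
            (H769.ix_of_le (Nat.le_succ k) (H769.corner k m2))).2 hst
        rw [eT_pt p ez U K v F2 s r o x u x0 hkK]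
        have h0 : Zf p ez U K F2 k (x0, x1, z) = 0 := by
          unfold Zf
          rw [if_pos hkK, H816.kF_dead hst', mul_zero]
        rw [h0, zero_pow two_ne_zero, zero_mul]
        exact f0 _ _
      · rw [eT_pt p ez U K v F2 s r o x u x0 hkK, hf]
        have hA : Af p o U K Q1 Q2 k (cx k (x0, x1, z)) := ⟨hkK, hst, hn⟩
        simp only
        rw [if_pos hA]
    · exact f0 _ _
  refine L1.trans (main.trans ?_)
  -- the right side
  have hpot : ∀ a ∈ iv K (cx K x).1, ∀ w : ι → ℝ,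
      w ⬝ᵥ GT u a K (cx K x).2.1 *ᵥ w ≤ P * (w ⬝ᵥ w) := by
    intro a ha w
    rw [H677.GT_form, ← H677.avg_iv]
    exact hc.u_pot a ha w
  have hmass : ∑ x1 ∈ iv K (cx K x).1, ∑ x3 ∈ iv K (cx K x).2.2, v x1 x3 ⬝ᵥ v x1 x3 ≤
      s * 4 ^ K := by
    have h1 : ∑ x1 ∈ iv K (cx K x).1, ∑ x3 ∈ iv K (cx K x).2.2, v x1 x3 ⬝ᵥ v x1 x3 ≤
        ∑ x1 ∈ iv K (cx K x).1, ∑ x3 ∈ iv K (cx K x).2.2, U.2.1 (x1, x3) ^ 2 :=
      sum_le_sum fun a ha => sum_le_sum fun b hb => hc.v_le a ha b hb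
    refine h1.trans ?_
    have h2 := hc.U_v2
    have e2 : A2 K U.2.1 x.1 x.2.2 = ((4 : ℝ) ^ K)⁻¹ *
        ∑ x1 ∈ iv K (cx K x).1, ∑ x3 ∈ iv K (cx K x).2.2, U.2.1 (x1, x3) ^ 2 := by
      unfold PL.H315.A2 PL.H315.avg
      rw [H769.iv_pt, H769.iv_pt, card_product, PL.card_iv, PL.card_iv, sum_product]
      congr 2
      push_cast
      rw [← mul_pow]
      norm_num
    rw [e2, inv_mul_le_iff₀ (by positivity)] at h2
    linarith
  have hG : 2 ^ K * ∑ x1 ∈ iv K (cx K x).1, ∑ x3 ∈ iv K (cx K x).2.2,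
      (2 * p.lam s r)⁻¹ * (v x1 x3 ⬝ᵥ GT u x1 K (cx K x).2.1 *ᵥ v x1 x3) ≤
      P / (2 * p.lam s r) * (s * 8 ^ K) := by
    have h1 : ∑ x1 ∈ iv K (cx K x).1, ∑ x3 ∈ iv K (cx K x).2.2,
        (2 * p.lam s r)⁻¹ * (v x1 x3 ⬝ᵥ GT u x1 K (cx K x).2.1 *ᵥ v x1 x3) ≤
        ∑ x1 ∈ iv K (cx K x).1, ∑ x3 ∈ iv K (cx K x).2.2,
        (2 * p.lam s r)⁻¹ * (P * (v x1 x3 ⬝ᵥ v x1 x3)) :=
      sum_le_sum fun a ha => sum_le_sum fun b _ =>
        mul_le_mul_of_nonneg_left (hpot a ha _) (by positivity)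
    simp only [← mul_sum] at h1 ⊢
    have h2 := mul_le_mul_of_nonneg_left hmass
      (show 0 ≤ 2 ^ K * ((2 * p.lam s r)⁻¹ * P) by positivity)
    have e8 : (8 : ℝ) ^ K = 2 ^ K * 4 ^ K := by rw [← mul_pow]; norm_num
    calc _ ≤ 2 ^ K * ((2 * p.lam s r)⁻¹ * (P *
          ∑ x1 ∈ iv K (cx K x).1, ∑ x3 ∈ iv K (cx K x).2.2, v x1 x3 ⬝ᵥ v x1 x3)) :=
          mul_le_mul_of_nonneg_left h1 (by positivity)
      _ = 2 ^ K * ((2 * p.lam s r)⁻¹ * P) *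
          ∑ x1 ∈ iv K (cx K x).1, ∑ x3 ∈ iv K (cx K x).2.2, v x1 x3 ⬝ᵥ v x1 x3 := by ring
      _ ≤ _ := h2
      _ = _ := by
          rw [e8]
          field_simp
  have hG' := mul_le_mul_of_nonneg_left hG (show (0 : ℝ) ≤ 4 * (1 + h * q) by positivity)
  refine le_of_eq_of_le ?_ (add_le_add_left hG'
    (16 * (cP + 2) * (beI p r * p.Lm) * (s * 8 ^ K) +
      4 * (64 * (cP + 2) * p.Lm * (1 / 2) ^ q) * (s * 8 ^ K)) |>.trans (le_of_eq ?_))
  · ring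
  · ring

end cls

/-! ### The fields -/

/-- the numbers of `aff_one` for the class data -/
theorem num_le {p : H401.Num} {s r : ℝ} (ht : 0 < p.t) (ht1 : p.t ≤ 1) (hs : 0 < s) (hr : 1 ≤ r)
    (he0 : 0 < p.e0) (he1 : p.e0 ≤ 1) (hc : p.c ≤ p.e0 / 2) {δ : ℝ}
    (hd : p.d ≤ δ / 2) (hd0 : 0 < p.d) {L : ℝ} (hL : 1 ≤ L) {C2 : ℝ} (hC2 : 0 ≤ C2) {J h : ℕ}
    (hJ1 : 2 * (p.t / r) ^ (-3 : ℝ) ≤ 2 ^ J) (hJ2 : ((J : ℝ) + 1) ^ 3 ≤ C2 * (p.t / r) ^ (-(δ / 2)))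
    {B : ℝ} (hB : 0 ≤ B) :
    16 * B * (beI p r * p.Lm) + 4 * ((1 + h * J) * (L * p.t ^ (2 - p.c) * √s / (2 * p.lam s r)) +
      64 * B * p.Lm * (1 / 2) ^ J) ≤
      (16 * B + 4 * (h + 1) * C2 * L + 256 * B) * ((p.t / r) ^ (-δ) * (p.t / r) ^ (p.e0 / 2)) := by
  set y : ℝ := p.t / r with hy
  have hr0 : 0 < r := by linarith
  have hy0 : 0 < y := div_pos ht hr0
  have hyt : y ≤ p.t := by
    rw [hy, div_le_iff₀ hr0]
    nlinarith
  have hy1 : y ≤ 1 := hyt.trans ht1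
  have hδ : 0 < δ := by linarith
  set W : ℝ := y ^ (-δ) * y ^ (p.e0 / 2) with hW
  have hW0 : 0 < W := mul_pos (Real.rpow_pos_of_pos hy0 _) (Real.rpow_pos_of_pos hy0 _)
  have hLm : p.Lm ≤ y ^ (-(δ / 2)) := by
    unfold H401.Num.Lm
    calc p.t ^ (-p.d) ≤ y ^ (-p.d) := Real.rpow_le_rpow_of_nonpos hy0 hyt (by linarith)
      _ ≤ y ^ (-(δ / 2)) := Real.rpow_le_rpow_of_exponent_ge hy0 hy1 (by linarith)
  have hδ2 : y ^ (-(δ / 2)) ≤ y ^ (-δ) :=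
    Real.rpow_le_rpow_of_exponent_ge hy0 hy1 (by linarith)
  have hb : beI p r = y ^ (p.e0 / 2) := rfl
  have hye : 0 < y ^ (p.e0 / 2) := Real.rpow_pos_of_pos hy0 _
  have a1 : beI p r * p.Lm ≤ W := by
    rw [hb, hW, mul_comm]
    exact mul_le_mul_of_nonneg_right (hLm.trans hδ2) hye.le
  -- the gap
  have a2 : L * p.t ^ (2 - p.c) * √s / (2 * p.lam s r) ≤ L * y ^ (p.e0 / 2) := by
    unfold H401.Num.lam
    have hs' : 0 < √s := Real.sqrt_pos.2 hs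
    have e1 : p.t ^ (2 - p.c) = p.t ^ (2 - p.e0) * p.t ^ (p.e0 - p.c) := by
      rw [← Real.rpow_add ht]
      congr 1
      ring
    have h2 : 0 < p.t ^ (2 - p.e0) := Real.rpow_pos_of_pos ht _
    have h3 : 0 < r ^ p.e0 := Real.rpow_pos_of_pos hr0 _
    rw [e1]
    have e2 : L * (p.t ^ (2 - p.e0) * p.t ^ (p.e0 - p.c)) * √s /
        (2 * (p.t ^ (2 - p.e0) * √s * r ^ p.e0)) = L / 2 * (p.t ^ (p.e0 - p.c) / r ^ p.e0) := by
      field_simp
    rw [e2]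
    have h4 : p.t ^ (p.e0 - p.c) / r ^ p.e0 ≤ y ^ (p.e0 / 2) := by
      have h5 : p.t ^ (p.e0 - p.c) ≤ p.t ^ (p.e0 / 2) :=
        Real.rpow_le_rpow_of_exponent_ge ht ht1 (by linarith)
      have h6 : r ^ (p.e0 / 2) ≤ r ^ p.e0 := Real.rpow_le_rpow_of_exponent_le hr (by linarith)
      rw [hy, Real.div_rpow ht.le hr0.le]
      exact div_le_div₀ (Real.rpow_nonneg ht.le _) h5 (Real.rpow_pos_of_pos hr0 _) h6
    calc L / 2 * (p.t ^ (p.e0 - p.c) / r ^ p.e0) ≤ L / 2 * y ^ (p.e0 / 2) :=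
          mul_le_mul_of_nonneg_left h4 (by linarith)
      _ ≤ L * y ^ (p.e0 / 2) := mul_le_mul_of_nonneg_right (by linarith) hye.le
  have a3 : (1 + (h : ℝ) * J) ≤ (h + 1) * (C2 * y ^ (-δ)) := by
    have h1 : (1 + (h : ℝ) * J) ≤ (h + 1) * (J + 1) := by
      have : (0 : ℝ) ≤ J := by positivity
      have : (0 : ℝ) ≤ h := by positivity
      nlinarith
    have h2 : ((J : ℝ) + 1) ≤ (J + 1) ^ 3 := by
      have : (0 : ℝ) ≤ J := by positivity
      nlinarith [sq_nonneg (J : ℝ), mul_nonneg this (sq_nonneg (J : ℝ))]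
    have h3 : ((J : ℝ) + 1) ≤ C2 * y ^ (-δ) :=
      h2.trans (hJ2.trans (mul_le_mul_of_nonneg_left hδ2 hC2))
    exact h1.trans (mul_le_mul_of_nonneg_left h3 (by positivity))
  have a4 : (1 + (h : ℝ) * J) * (L * p.t ^ (2 - p.c) * √s / (2 * p.lam s r)) ≤
      (h + 1) * C2 * L * W := by
    have hl := H401.Num.lam_pos (p := p) ht hs hr
    have h1 := mul_le_mul a3 a2
      (div_nonneg (mul_nonneg (mul_nonneg (by linarith) (Real.rpow_nonneg ht.le _))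
        (Real.sqrt_nonneg _)) (by positivity)) (by positivity)
    refine h1.trans (le_of_eq ?_)
    rw [hW]
    ring
  -- the tail
  have a5 : p.Lm * (1 / 2) ^ J ≤ W := by
    have h1 : ((1 : ℝ) / 2) ^ J ≤ y ^ (p.e0 / 2) := by
      have h2 : ((1 : ℝ) / 2) ^ J = (2 ^ J)⁻¹ := by rw [one_div, inv_pow]
      rw [h2, inv_le_comm₀ (by positivity) hye]
      calc (y ^ (p.e0 / 2))⁻¹ = y ^ (-(p.e0 / 2)) := (Real.rpow_neg hy0.le _).symm
        _ ≤ y ^ (-3 : ℝ) := Real.rpow_le_rpow_of_exponent_ge hy0 hy1 (by linarith)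
        _ ≤ 2 * y ^ (-3 : ℝ) := by
            have := Real.rpow_nonneg hy0.le (-3)
            linarith
        _ ≤ 2 ^ J := hJ1
    exact mul_le_mul (hLm.trans hδ2) h1 (by positivity) (Real.rpow_nonneg hy0.le _)
  calc 16 * B * (beI p r * p.Lm) +
        4 * ((1 + h * J) * (L * p.t ^ (2 - p.c) * √s / (2 * p.lam s r)) +
          64 * B * p.Lm * (1 / 2) ^ J)
      = 16 * B * (beI p r * p.Lm) +
        4 * ((1 + h * J) * (L * p.t ^ (2 - p.c) * √s / (2 * p.lam s r))) +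
        256 * B * (p.Lm * (1 / 2) ^ J) := by ring
    _ ≤ 16 * B * W + 4 * ((h + 1) * C2 * L * W) + 256 * B * W := by
        refine add_le_add (add_le_add ?_ ?_) ?_
        · exact mul_le_mul_of_nonneg_left a1 (by positivity)
        · exact mul_le_mul_of_nonneg_left a4 (by norm_num)
        · exact mul_le_mul_of_nonneg_left a5 (by positivity)
    _ = _ := by ring

section off

variable {ι : Type} [Fintype ι] [DecidableEq ι]

/-- a change of `A` at a square makes it affected -/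
theorem chA_aff {p : H401.Num} {s r : ℝ} {U : Tri} {K : ℕ} {g : ℤ → ℤ → ℝ} {F1 : ℕ → Pt → ℝ}
    {Q1 : ℕ → Pt → Prop} {x0 : ℤ} {k : ℕ} (hk : k < K) {n2 m : ℤ}
    (h : Ch (aS p s r U K g F1 Q1 x0) k n2 m) :
    QD (fun k x y => sst p.Lm U.2.2 K k x y) Q1 k (ix k x0) n2 m := by
  by_contra hq
  obtain ⟨a, ha, b, hb, hne⟩ := h
  apply hne
  have e1 : aS p s r U K g F1 Q1 x0 (k + 1) a b = cA p s r U K g F1 Q1 x0 (min (k + 1) K) b a :=
    rfl
  have e2 : aS p s r U K g F1 Q1 x0 k a b = cA p s r U K g F1 Q1 x0 (min k K) b a := rfl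
  rw [e1, e2, min_eq_left (by omega : k + 1 ≤ K), min_eq_left hk.le]
  have h := H205.lowF_off (c := p.th s r ^ 2)
    (F := fun k => H103.un (H401.mA p U K g F1 x0 k))
    (Q := fun k n m => qA p U K Q1 k (ix k x0) n m) (k := k) (n := m) (m := n2) hq hb ha
  exact congrFun h ()

/-- a change of `C` at a square makes it affected -/
theorem chC_aff {p : H401.Num} {ez cP : ℝ} {U : Tri} {n K : ℕ} {v : ℤ → ℤ → ι → ℝ}
    {F2 : ℕ → Pt → ℝ} {Q2 : ℕ → Pt → Prop} (hB : BSl n ez cP F2 Q2) (hK : K ≤ n) {x0 : ℤ} {k : ℕ}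
    (hk : k < K) {n1 m : ℤ} (h : Ch (cS p ez U K v F2 x0) k n1 m) :
    QD (fun k x y => sst p.Lm U.2.1 K k x y) Q2 k (ix k x0) n1 m := by
  by_contra hq
  obtain ⟨a, ha, b, hb, hne⟩ := h
  apply hne
  have e1 : cS p ez U K v F2 x0 (k + 1) a b = C1 p ez U K v F2 x0 (min (k + 1) K) b a := rfl
  have e2 : cS p ez U K v F2 x0 k a b = C1 p ez U K v F2 x0 (min k K) b a := rfl
  rw [e1, e2, min_eq_left (by omega : k + 1 ≤ K), min_eq_left hk.le]
  have h := H816.mC_agree p U K v hB (hk.trans_le hK) (x0 := x0) (i := m) (m := n1) hq b hb a ha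
  unfold C1
  rw [h]

/-- cross births, one root -/
theorem cross_root {p : H401.Num} {o : ℤ} (ho : o = 1 ∨ o = -1) {n K : ℕ} (hK : K ≤ n)
    {e ez cq : ℝ} {F1 F2 : ℕ → Pt → ℝ} {Q1 Q2 : ℕ → Pt → Prop}
    (hB1 : BSl n e cq F1 Q1) (hB2 : BSl n ez cq F2 Q2) (hez : 0 < ez) (hcP : 0 ≤ cq) {x : Pt}
    {s r P : ℝ} {U : Tri} {g : ℤ → ℤ → ℝ} {u v : ℤ → ℤ → ι → ℝ} (ht : 0 < p.t) (hs : 0 < s)
    (hr : 1 ≤ r) (hP : 0 ≤ P) (hc : Cls K x s r P U g u v) {h : ℕ} (hh : 1 ≤ h)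
    (hPh : 2 * (4 * (4 * (cq + 2))) ≤ h) (q : ℕ) (t : ℤ) :
    ∑ x0 ∈ iv K t, ∑ k ∈ Ico 0 K,
      GW K (cx K x).2.1 (cx K x).2.2 (cx K x).1 k (cP o x0 k) (fun n2 n1 m =>
        if Ch (aS p s r U K g F1 Q1 x0) k n2 m ∨ Ch (cS p ez U K v F2 x0) k n1 m then
          (W3 (cS p ez U K v F2 x0 (k + 1)) (thS p s r o K x u x0) k k n1 m).trace else 0) ≤
      (16 * (cq + 2) * (beI p r * p.Lm) +
        4 * ((1 + h * q) * (P / (2 * p.lam s r)) +
          64 * (cq + 2) * p.Lm * (1 / 2) ^ q)) * (s * 8 ^ K) := by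
  refine le_trans ?_ (aff_one ho hK hcP hB1 hB2 hez ht hs hr hP hc hh hPh q t)
  have hpd : ∀ x0 x1 k m, (thS p s r o K x u x0 x1 k m).PosDef := fun x0 x1 k m =>
    H808.thS_pd ht hs hr o K x u x0 x1 k m
  refine sum_le_sum fun x0 _ => sum_le_sum fun k hk => ?_
  have hkK : k < K := (mem_Ico.1 hk).2
  refine (GW_W3_le hkK.le _ _ _ _ (fun n2 n1 m => Ch (aS p s r U K g F1 Q1 x0) k n2 m ∨
    Ch (cS p ez U K v F2 x0) k n1 m) _ _
    (fun x1 z => H808.eT_nonneg (hpd x0) _ k x1 z)).trans ?_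
  refine sum_le_sum fun x1 _ => sum_le_sum fun z _ => ?_
  split_ifs with h1 h2
  · exact le_rfl
  · exfalso
    apply h2
    rcases h1 with h1 | h1
    · left
      have h3 := chA_aff hkK h1
      unfold H460.nA1
      have e1 : o - 2 - (ix k x0, ix k x1, ix k z).1 - (ix k x0, ix k x1, ix k z).2.1 -
          (ix k x0, ix k x1, ix k z).2.2 = cP o x0 k - ix k z - ix k x1 := by
        unfold H677.cP
        ring
      rw [e1]
      exact h3
    · right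
      left
      exact chC_aff hB2 hK hkK h1
  · exact H808.eT_nonneg (hpd x0) _ k x1 z
  · exact le_rfl

/-- births, one root -/
theorem born_root {p : H401.Num} {o : ℤ} (ho : o = 1 ∨ o = -1) {n K : ℕ} (hK : K ≤ n)
    {e ez cq : ℝ} {F1 F2 : ℕ → Pt → ℝ} {Q1 Q2 : ℕ → Pt → Prop}
    (hB1 : BSl n e cq F1 Q1) (hB2 : BSl n ez cq F2 Q2) (hez : 0 < ez) (hcP : 0 ≤ cq) {x : Pt}
    {s r P : ℝ} {U : Tri} {g : ℤ → ℤ → ℝ} {u v : ℤ → ℤ → ι → ℝ} (ht : 0 < p.t) (hs : 0 < s)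
    (hr : 1 ≤ r) (hP : 0 ≤ P) (hc : Cls K x s r P U g u v) {h : ℕ} (hh : 1 ≤ h)
    (hPh : 2 * (4 * (4 * (cq + 2))) ≤ h) (q : ℕ) (t : ℤ) :
    ∑ x0 ∈ iv K t, ∑ k ∈ Ico 0 K, ∑ x1 ∈ iv K (cx K x).1, ∑ z ∈ iv K (cx K x).2.2,
      (if Ch (cS p ez U K v F2 x0) k (ix k x1) (ix k z) then
        eT (cS p ez U K v F2 x0 (k + 1)) (thS p s r o K x u x0) k x1 z else 0) ≤
      (16 * (cq + 2) * (beI p r * p.Lm) +
        4 * ((1 + h * q) * (P / (2 * p.lam s r)) +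
          64 * (cq + 2) * p.Lm * (1 / 2) ^ q)) * (s * 8 ^ K) := by
  refine le_trans ?_ (aff_one ho hK hcP hB1 hB2 hez ht hs hr hP hc hh hPh q t)
  have hpd : ∀ x0 x1 k m, (thS p s r o K x u x0 x1 k m).PosDef := fun x0 x1 k m =>
    H808.thS_pd ht hs hr o K x u x0 x1 k m
  refine sum_le_sum fun x0 _ => sum_le_sum fun k hk => ?_
  have hkK : k < K := (mem_Ico.1 hk).2
  refine sum_le_sum fun x1 _ => sum_le_sum fun z _ => ?_
  split_ifs with h1 h2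
  · exact le_rfl
  · exact absurd (Or.inr (Or.inl (chC_aff hB2 hK hkK h1))) h2
  · exact H808.eT_nonneg (hpd x0) _ k x1 z
  · exact le_rfl

end off

theorem card_rt (M : Pt) : ((rt M).card : ℝ) = 3 := by
  unfold H677.rt
  rw [Int.card_Icc]
  have e1 : -(M.1 + M.2.1 + M.2.2) - 1 + 1 - (-(M.1 + M.2.1 + M.2.2) - 3) = 3 := by ring
  rw [e1, show (3 : ℤ).toNat = 3 from rfl]
  norm_num

theorem exists_h (cq : ℝ) : ∃ h : ℕ, 1 ≤ h ∧ 2 * (4 * (4 * (cq + 2))) ≤ (h : ℝ) := by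
  refine ⟨⌈2 * (4 * (4 * (cq + 2)))⌉₊ + 1, by omega, ?_⟩
  push_cast
  have := Nat.le_ceil (2 * (4 * (4 * (cq + 2))))
  linarith

/-- **Cross births of the stack.** -/
theorem fCross : H808.FCross := by
  intro a _ _
  refine ⟨1, one_pos, fun e0 he0 he01 => ⟨1, one_pos, fun k8 _ _ => ⟨1, one_pos,
    fun k3 _ _ δ hδ => ?_⟩⟩⟩
  obtain ⟨C2, hC2, hJ⟩ := H808.exists_levels (δ := δ / 2) (by positivity)
  refine ⟨e0 / 2, δ / 2, by positivity, by positivity,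
    fun c _ hcc d hd hdd Kt e cq L hK he hcq hL => ?_⟩
  obtain ⟨h, hh, hh2⟩ := exists_h cq
  refine ⟨3 * (16 * (cq + 2) + 4 * (h + 1) * C2 * L + 256 * (cq + 2)), by positivity, ?_⟩
  intro t ht ht1 n ez F1 F2 F3 _ _ _ o ho K hKn x ι _ _ s r U g u v hs hr hcls Q1 Q2 Q3 q1 q2 q3
    hez
  have hr0 : 0 < r := by linarith
  obtain ⟨J, hJ1, hJ2⟩ := hJ (t / r) (div_pos ht hr0) ((div_le_one hr0).2 (ht1.trans hr))
  have hP : 0 ≤ L * t ^ (2 - c) * √s :=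
    mul_nonneg (mul_nonneg (by linarith) (Real.rpow_nonneg ht.le _)) (Real.sqrt_nonneg _)
  have hnum := num_le (p := ⟨a, e0, k8, k3, c, d, Kt, e, cq, L, 1, t⟩) ht ht1 hs hr he0 he01 hcc
    hdd hd hL hC2 (h := h) hJ1 hJ2 (B := cq + 2) (by linarith)
  have one := fun t0 : ℤ => (cross_root (p := ⟨a, e0, k8, k3, c, d, Kt, e, cq, L, 1, t⟩) ho hKn
    q1 q2 hez hcq ht hs hr hP hcls.toCls hh hh2 J t0).trans
      (mul_le_mul_of_nonneg_right hnum (by positivity))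
  refine (sum_le_sum fun t0 _ => one t0).trans ?_
  rw [sum_const, nsmul_eq_mul, card_rt]
  refine le_of_eq ?_
  show 3 * ((16 * (cq + 2) + 4 * (h + 1) * C2 * L + 256 * (cq + 2)) *
    ((t / r) ^ (-δ) * (t / r) ^ (e0 / 2)) * (s * 8 ^ K)) =
    3 * (16 * (cq + 2) + 4 * (h + 1) * C2 * L + 256 * (cq + 2)) * (t / r) ^ (-δ) *
    (s * 8 ^ K) * (t / r) ^ (e0 / 2)
  ring

/-- **Births of the stack.** -/
theorem fBorn : H808.FBorn := by
  intro a _ _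
  refine ⟨1, one_pos, fun e0 he0 he01 => ⟨1, one_pos, fun k8 _ _ => ⟨1, one_pos,
    fun k3 _ _ δ hδ => ?_⟩⟩⟩
  obtain ⟨C2, hC2, hJ⟩ := H808.exists_levels (δ := δ / 2) (by positivity)
  refine ⟨e0 / 2, δ / 2, by positivity, by positivity,
    fun c _ hcc d hd hdd Kt e cq L hK he hcq hL => ?_⟩
  obtain ⟨h, hh, hh2⟩ := exists_h cq
  refine ⟨3 * (16 * (cq + 2) + 4 * (h + 1) * C2 * L + 256 * (cq + 2)), by positivity, ?_⟩
  intro t ht ht1 n ez F1 F2 F3 _ _ _ o ho K hKn x ι _ _ s r U g u v hs hr hcls Q1 Q2 Q3 q1 q2 q3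
    hez
  have hr0 : 0 < r := by linarith
  obtain ⟨J, hJ1, hJ2⟩ := hJ (t / r) (div_pos ht hr0) ((div_le_one hr0).2 (ht1.trans hr))
  have hP : 0 ≤ L * t ^ (2 - c) * √s :=
    mul_nonneg (mul_nonneg (by linarith) (Real.rpow_nonneg ht.le _)) (Real.sqrt_nonneg _)
  have hnum := num_le (p := ⟨a, e0, k8, k3, c, d, Kt, e, cq, L, 1, t⟩) ht ht1 hs hr he0 he01 hcc
    hdd hd hL hC2 (h := h) hJ1 hJ2 (B := cq + 2) (by linarith)
  have one := fun t0 : ℤ => (born_root (p := ⟨a, e0, k8, k3, c, d, Kt, e, cq, L, 1, t⟩) ho hKn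
    q1 q2 hez hcq ht hs hr hP hcls.toCls hh hh2 J t0).trans
      (mul_le_mul_of_nonneg_right hnum (by positivity))
  refine (sum_le_sum fun t0 _ => one t0).trans ?_
  rw [sum_const, nsmul_eq_mul, card_rt]
  refine le_of_eq ?_
  show 3 * ((16 * (cq + 2) + 4 * (h + 1) * C2 * L + 256 * (cq + 2)) *
    ((t / r) ^ (-δ) * (t / r) ^ (e0 / 2)) * (s * 8 ^ K)) =
    3 * (16 * (cq + 2) + 4 * (h + 1) * C2 * L + 256 * (cq + 2)) * (t / r) ^ (-δ) *
    (s * 8 ^ K) * (t / r) ^ (e0 / 2)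
  ring

end

end Vale.Agent.P141.H989.FX
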