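import Vale.Agent.P141.H922.TieSum

/-!
# Logarithmic Carleson inequality on the tree of the cubes

Cells `(k; r, s, q)`, eight children. `T8 f K R S M` is the sum of `8 ^ k f` below the root.

* `weak_tree` : weak type, `H` with mean of the children at most the parent;
* `carl_log` : `T8 (a H) ≤ P 8 ^ K (λ₀ + n H_root)` for packed `a` and `a H ≤ a 2 ^ n λ₀`.
-/

namespace Vale.Agent.P141.H989

open Finset
open Vale.Agent.P141.PL (iv ix mem_iv ix_ix)

noncomputable section

/-- sum over the eight children -/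
def c8 (g : ℤ → ℤ → ℤ → ℝ) (r s q : ℤ) : ℝ :=
  ∑ i ∈ iv 1 r, ∑ j ∈ iv 1 s, ∑ p ∈ iv 1 q, g i j p

/-- the weighted sum over all cells below a root -/
def T8 (f : ℕ → ℤ → ℤ → ℤ → ℝ) (K : ℕ) (R S M : ℤ) : ℝ :=
  ∑ k ∈ range (K + 1), (8 : ℝ) ^ k * ∑ r ∈ iv (K - k) R, ∑ s ∈ iv (K - k) S,
    ∑ q ∈ iv (K - k) M, f k r s q

theorem c8_mono {g h : ℤ → ℤ → ℤ → ℝ} (H : ∀ i j p, g i j p ≤ h i j p) (r s q : ℤ) :
    c8 g r s q ≤ c8 h r s q :=
  sum_le_sum fun _ _ => sum_le_sum fun _ _ => sum_le_sum fun _ _ => H _ _ _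

theorem iv_zero (m : ℤ) : iv 0 m = {m} := by
  ext x
  rw [mem_iv, mem_singleton]
  unfold ix
  simp

theorem iv_top (n : ℕ) (R : ℤ) (f : ℤ → ℝ) :
    ∑ x ∈ iv (n + 1) R, f x = ∑ ρ ∈ iv 1 R, ∑ x ∈ iv n ρ, f x := by
  have h := H922.iv_iv (Nat.le_succ n) R f
  rw [Nat.succ_eq_add_one, Nat.add_sub_cancel_left] at h
  exact h.symm

theorem T8_zero (f : ℕ → ℤ → ℤ → ℤ → ℝ) (R S M : ℤ) : T8 f 0 R S M = f 0 R S M := by
  unfold T8
  simp [iv_zero]

theorem T8_succ (f : ℕ → ℤ → ℤ → ℤ → ℝ) (K : ℕ) (R S M : ℤ) :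
    T8 f (K + 1) R S M = (8 : ℝ) ^ (K + 1) * f (K + 1) R S M + c8 (T8 f K) R S M := by
  have top : (8 : ℝ) ^ (K + 1) * ∑ r ∈ iv (K + 1 - (K + 1)) R, ∑ s ∈ iv (K + 1 - (K + 1)) S,
      ∑ q ∈ iv (K + 1 - (K + 1)) M, f (K + 1) r s q = (8 : ℝ) ^ (K + 1) * f (K + 1) R S M := by
    rw [Nat.sub_self, iv_zero, iv_zero, iv_zero, sum_singleton, sum_singleton, sum_singleton]
  have low : ∀ k ∈ range (K + 1), (8 : ℝ) ^ k * ∑ r ∈ iv (K + 1 - k) R, ∑ s ∈ iv (K + 1 - k) S,
      ∑ q ∈ iv (K + 1 - k) M, f k r s q = c8 (fun i j p => (8 : ℝ) ^ k * ∑ r ∈ iv (K - k) i,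
        ∑ s ∈ iv (K - k) j, ∑ q ∈ iv (K - k) p, f k r s q) R S M := by
    intro k hk
    have e : K + 1 - k = (K - k) + 1 := by
      have := mem_range.1 hk
      omega
    rw [e, iv_top]
    unfold c8
    rw [mul_sum]
    refine sum_congr rfl fun i _ => ?_
    have h1 : ∀ r, ∑ s ∈ iv (K - k + 1) S, ∑ q ∈ iv (K - k + 1) M, f k r s q =
        ∑ j ∈ iv 1 S, ∑ p ∈ iv 1 M, ∑ s ∈ iv (K - k) j, ∑ q ∈ iv (K - k) p, f k r s q := by
      intro r
      rw [iv_top]
      refine sum_congr rfl fun j _ => ?_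
      have h2 : ∀ s, ∑ q ∈ iv (K - k + 1) M, f k r s q =
          ∑ p ∈ iv 1 M, ∑ q ∈ iv (K - k) p, f k r s q := fun s => iv_top _ _ _
      simp only [h2]
      rw [sum_comm]
    simp only [h1]
    rw [sum_comm, mul_sum]
    refine sum_congr rfl fun j _ => ?_
    rw [sum_comm, mul_sum]
  unfold T8
  rw [sum_range_succ, top, sum_congr rfl low, add_comm]
  congr 1
  unfold c8
  rw [sum_comm]
  refine sum_congr rfl fun i _ => ?_
  rw [sum_comm]
  refine sum_congr rfl fun j _ => ?_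
  rw [sum_comm]

theorem T8_mono {f g : ℕ → ℤ → ℤ → ℤ → ℝ} {K : ℕ} (h : ∀ k ≤ K, ∀ r s q, f k r s q ≤ g k r s q)
    (R S M : ℤ) : T8 f K R S M ≤ T8 g K R S M := by
  unfold T8
  refine sum_le_sum fun k hk => mul_le_mul_of_nonneg_left ?_ (by positivity)
  exact sum_le_sum fun _ _ => sum_le_sum fun _ _ => sum_le_sum fun _ _ =>
    h k (by have := mem_range.1 hk; omega) _ _ _

theorem T8_add (f g : ℕ → ℤ → ℤ → ℤ → ℝ) (K : ℕ) (R S M : ℤ) :
    T8 (fun k r s q => f k r s q + g k r s q) K R S M = T8 f K R S M + T8 g K R S M := by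
  unfold T8
  simp only [sum_add_distrib, mul_add]

theorem T8_smul (c : ℝ) (f : ℕ → ℤ → ℤ → ℤ → ℝ) (K : ℕ) (R S M : ℤ) :
    T8 (fun k r s q => c * f k r s q) K R S M = c * T8 f K R S M := by
  unfold T8
  simp only [← mul_sum]
  rw [mul_sum]
  refine sum_congr rfl fun k _ => ?_
  ring

theorem T8_sum {J : Type*} (X : Finset J) (f : J → ℕ → ℤ → ℤ → ℤ → ℝ) (K : ℕ) (R S M : ℤ) :
    T8 (fun k r s q => ∑ i ∈ X, f i k r s q) K R S M = ∑ i ∈ X, T8 (f i) K R S M := by
  classical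
  induction X using Finset.induction_on with
  | empty => simp [T8]
  | insert i X hi ih =>
    simp only [sum_insert hi]
    rw [T8_add, ih]

/-- **Weak type.** -/
theorem weak_tree {a H : ℕ → ℤ → ℤ → ℤ → ℝ} {K : ℕ} (a0 : ∀ k ≤ K, ∀ r s q, 0 ≤ a k r s q)
    (H0 : ∀ k ≤ K, ∀ r s q, 0 ≤ H k r s q)
    (hH : ∀ k < K, ∀ r s q, c8 (H k) r s q ≤ 8 * H (k + 1) r s q) {P : ℝ} (hP : 0 ≤ P)
    (pack : ∀ J ≤ K, ∀ R S M, T8 a J R S M ≤ P * 8 ^ J) {lam : ℝ} (hl : 0 < lam) (R S M : ℤ) :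
    T8 (fun k r s q => if lam < H k r s q then a k r s q else 0) K R S M ≤
      P * 8 ^ K * H K R S M / lam := by
  have key : ∀ J ≤ K, ∀ R S M,
      T8 (fun k r s q => if lam < H k r s q then a k r s q else 0) J R S M ≤
        P * 8 ^ J * H J R S M / lam := by
    intro J
    induction J with
    | zero =>
      intro hJ R S M
      rw [T8_zero]
      rw [le_div_iff₀ hl]
      have h1 := pack 0 hJ R S M
      rw [T8_zero] at h1
      have h2 := H0 0 hJ R S M
      have h3 := a0 0 hJ R S M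
      rw [pow_zero, mul_one] at *
      split_ifs with h
      · calc a 0 R S M * lam ≤ P * lam := mul_le_mul_of_nonneg_right h1 hl.le
          _ ≤ P * H 0 R S M := mul_le_mul_of_nonneg_left h.le hP
      · rw [zero_mul]
        positivity
    | succ J ih =>
      intro hJ R S M
      have hJ' : J ≤ K := by omega
      by_cases h : lam < H (J + 1) R S M
      · have h1 : T8 (fun k r s q => if lam < H k r s q then a k r s q else 0) (J + 1) R S M ≤
            T8 a (J + 1) R S M := by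
          refine T8_mono (fun k hk r s q => ?_) R S M
          split_ifs
          · exact le_rfl
          · exact a0 k (hk.trans hJ) r s q
        refine (h1.trans (pack (J + 1) hJ R S M)).trans ?_
        rw [le_div_iff₀ hl]
        exact mul_le_mul_of_nonneg_left h.le (by positivity)
      · rw [T8_succ, if_neg h, mul_zero, zero_add]
        refine (c8_mono (fun i j p => ih hJ' i j p) R S M).trans ?_
        have e : c8 (fun i j p => P * 8 ^ J * H J i j p / lam) R S M =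
            P * 8 ^ J / lam * c8 (H J) R S M := by
          unfold c8
          rw [mul_sum]
          refine sum_congr rfl fun i _ => ?_
          rw [mul_sum]
          refine sum_congr rfl fun j _ => ?_
          rw [mul_sum]
          refine sum_congr rfl fun p _ => ?_
          ring
        rw [e]
        have h1 := mul_le_mul_of_nonneg_left (hH J (by omega) R S M)
          (show 0 ≤ P * 8 ^ J / lam by positivity)
        refine h1.trans (le_of_eq ?_)
        rw [pow_succ]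
        ring
  exact key K le_rfl R S M

/-- dyadic decomposition of the height -/
theorem dyad_le {x lam : ℝ} {n : ℕ} (hl : 0 < lam) (hx : x ≤ 2 ^ n * lam) :
    x ≤ lam + ∑ i ∈ range n, 2 ^ i * lam * (if 2 ^ i * lam < x then 1 else 0) := by
  induction n with
  | zero =>
    simp only [pow_zero, one_mul] at hx
    simpa using hx
  | succ n ih =>
    rw [sum_range_succ]
    by_cases h : x ≤ 2 ^ n * lam
    · have h1 := ih h
      rw [if_neg (not_lt.2 h), mul_zero, add_zero]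
      exact h1
    · push Not at h
      rw [if_pos h, mul_one]
      have h2 : ∀ i ∈ range n, (2 : ℝ) ^ i * lam * (if 2 ^ i * lam < x then 1 else 0) =
          2 ^ i * lam := by
        intro i hi
        have hi' : i < n := mem_range.1 hi
        have h3 : (2 : ℝ) ^ i * lam ≤ 2 ^ n * lam :=
          mul_le_mul_of_nonneg_right (pow_le_pow_right₀ (by norm_num) hi'.le) hl.le
        rw [if_pos (lt_of_le_of_lt h3 h), mul_one]
      rw [sum_congr rfl h2, ← sum_mul]
      have h4 : ∑ i ∈ range n, (2 : ℝ) ^ i = 2 ^ n - 1 := by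
        have := geom_sum_eq (show (2 : ℝ) ≠ 1 by norm_num) n
        rw [this]
        norm_num
      rw [h4]
      rw [pow_succ] at hx
      linarith

/-- **Logarithmic Carleson inequality.** -/
theorem carl_log {a H : ℕ → ℤ → ℤ → ℤ → ℝ} {K : ℕ} (a0 : ∀ k ≤ K, ∀ r s q, 0 ≤ a k r s q)
    (H0 : ∀ k ≤ K, ∀ r s q, 0 ≤ H k r s q)
    (hH : ∀ k < K, ∀ r s q, c8 (H k) r s q ≤ 8 * H (k + 1) r s q) {P : ℝ} (hP : 0 ≤ P)
    (pack : ∀ J ≤ K, ∀ R S M, T8 a J R S M ≤ P * 8 ^ J) {lam : ℝ} (hl : 0 < lam) {n : ℕ}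
    (cap : ∀ k ≤ K, ∀ r s q, 0 < a k r s q → H k r s q ≤ 2 ^ n * lam) (R S M : ℤ) :
    T8 (fun k r s q => a k r s q * H k r s q) K R S M ≤
      P * 8 ^ K * (lam + n * H K R S M) := by
  have h1 : T8 (fun k r s q => a k r s q * H k r s q) K R S M ≤
      T8 (fun k r s q => lam * a k r s q + ∑ i ∈ range n, 2 ^ i * lam *
        (if 2 ^ i * lam < H k r s q then a k r s q else 0)) K R S M := by
    refine T8_mono (fun k hk r s q => ?_) R S M
    rcases (a0 k hk r s q).eq_or_lt with h | h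
    · rw [← h]
      simp
    · have h2 := mul_le_mul_of_nonneg_left (dyad_le hl (cap k hk r s q h)) h.le
      refine h2.trans (le_of_eq ?_)
      rw [mul_add, mul_comm _ lam, mul_sum]
      congr 1
      refine sum_congr rfl fun i _ => ?_
      split_ifs <;> ring
  refine h1.trans ?_
  rw [T8_add, T8_smul, T8_sum]
  have h2 := mul_le_mul_of_nonneg_left (pack K le_rfl R S M) hl.le
  have h3 : ∀ i ∈ range n, T8 (fun k r s q => 2 ^ i * lam *
      (if 2 ^ i * lam < H k r s q then a k r s q else 0)) K R S M ≤ P * 8 ^ K * H K R S M := by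
    intro i _
    have hp : (0 : ℝ) < 2 ^ i * lam := by positivity
    rw [T8_smul]
    have h4 := mul_le_mul_of_nonneg_left (weak_tree a0 H0 hH hP pack hp R S M) hp.le
    refine h4.trans (le_of_eq ?_)
    field_simp
  have h4 := sum_le_sum h3
  rw [sum_const, card_range, nsmul_eq_mul] at h4
  calc _ ≤ lam * (P * 8 ^ K) + n * (P * 8 ^ K * H K R S M) := add_le_add h2 h4
    _ = _ := by ring

end

end Vale.Agent.P141.H989
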