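import Vale.Agent.P141.H989.CarlT
import Vale.Agent.P141.H652.ThetaW
import Vale.Agent.P141.PL.H588.Split

/-!
# P141, line (A), TI: charges of the weight on affected cubes

`Qf k j r s` : the cube of scale `k` with `x₀`-cell `j`, `x₁`-cell `r`, `x₃`-cell `s` is affected;
packing in cubes.  `al k r s` : the `(x₁, x₃)`-square is alive (hereditary).

* `chg_abs` : the charge of any function dominated by `SUM_(d ∈ [-3, 0]) X k (d - (j + r + s))`,
  `X` with mean of the halves at most the parent;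
* `chg_T` : the charge of `Th`; `chg_M` : the charge of the mass.
-/

namespace Vale.Agent.P141.H989

open Finset Matrix
open Vale.Agent.P141.PL (iv ix mem_iv ix_ix)
open Vale.Agent.P141.H420 (Tr)
open Vale.Agent.P141.H652 (WT ET Th st)

noncomputable section

open scoped Classical

/-- indicator of an affected cube -/
def chi (Qf : ℕ → ℤ → ℤ → ℤ → Prop) (k : ℕ) (j r s : ℤ) : ℝ := if Qf k j r s then 1 else 0

theorem chi_nonneg (Qf : ℕ → ℤ → ℤ → ℤ → Prop) (k : ℕ) (j r s : ℤ) : 0 ≤ chi Qf k j r s := by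
  unfold chi
  split_ifs <;> norm_num

/-- number of the affected cubes tied to the cell -/
def aQ (Qf : ℕ → ℤ → ℤ → ℤ → Prop) (k : ℕ) (r s q : ℤ) : ℝ :=
  ∑ d ∈ Icc (-3 : ℤ) 0, chi Qf k (d - (q + r + s)) r s

theorem aQ_nonneg (Qf : ℕ → ℤ → ℤ → ℤ → Prop) (k : ℕ) (r s q : ℤ) : 0 ≤ aQ Qf k r s q :=
  sum_nonneg fun _ _ => chi_nonneg _ _ _ _ _

/-- reflected cells -/
theorem refl_cells {i : ℕ} {R S M d r s : ℤ} (hd : d ∈ Icc (-3 : ℤ) 0) (hr : r ∈ iv i R)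
    (hs : s ∈ iv i S) {F : ℤ → ℝ} (hF : ∀ j, 0 ≤ F j) :
    ∑ q ∈ iv i M, F (d - (q + r + s)) ≤
      ∑ p ∈ Icc (-3 - (R + S + M)) (-(R + S + M)), ∑ j ∈ iv i p, F j := by
  have hdis : ∀ a ∈ Icc (-3 - (R + S + M)) (-(R + S + M)),
      ∀ b ∈ Icc (-3 - (R + S + M)) (-(R + S + M)), a ≠ b → Disjoint (iv i a) (iv i b) := by
    intro a _ b _ hab
    rw [disjoint_left]
    intro x hx hx'
    exact hab ((mem_iv.1 hx).symm.trans (mem_iv.1 hx'))
  rw [← sum_biUnion hdis]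
  have hi : Set.InjOn (fun q => d - (q + r + s)) (iv i M : Set ℤ) := by
    intro x _ y _ h
    simp only at h
    omega
  rw [← sum_image (f := F) (g := fun q => d - (q + r + s)) hi]
  refine sum_le_sum_of_subset_of_nonneg ?_ fun n _ _ => hF n
  intro x hx
  obtain ⟨q, hq, rfl⟩ := mem_image.1 hx
  rw [mem_biUnion]
  refine ⟨ix i (d - (q + r + s)), ?_, mem_iv.2 rfl⟩
  unfold iv at hr hs hq
  rw [mem_Ico] at hr hs hq
  rw [mem_Icc] at hd ⊢
  have hp : (0 : ℤ) < 2 ^ i := by positivity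
  have hp1 : (1 : ℤ) ≤ 2 ^ i := by omega
  unfold ix
  generalize (2 : ℤ) ^ i = p at *
  have e1 : p * (-(R + S + M)) = -(p * R + p * S + p * M) := by ring
  constructor
  · rw [Int.le_ediv_iff_mul_le hp]
    have e2 : (-3 - (R + S + M)) * p = -3 * p - (p * R + p * S + p * M) := by ring
    rw [e2]
    linarith [hr.2, hs.2, hq.2, hd.1]
  · have : d - (q + r + s) < (-(R + S + M) + 1) * p := by
      have e3 : (-(R + S + M) + 1) * p = p - (p * R + p * S + p * M) := by ring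
      rw [e3]
      linarith [hr.1, hs.1, hq.1, hd.2]
    have h2 := (Int.ediv_lt_iff_lt_mul hp).2 this
    omega

/-- **Packing of the tied cells.** -/
theorem pack_aQ {Qf : ℕ → ℤ → ℤ → ℤ → Prop} {K : ℕ} {P : ℝ}
    (hQ : ∀ J ≤ K, ∀ t R S, T8 (chi Qf) J t R S ≤ P * 8 ^ J) {J : ℕ} (hJ : J ≤ K) (R S M : ℤ) :
    T8 (aQ Qf) J R S M ≤ 16 * P * 8 ^ J := by
  have h1 : T8 (aQ Qf) J R S M ≤
      ∑ p ∈ Icc (-3 - (R + S + M)) (-(R + S + M)), 4 * T8 (chi Qf) J p R S := by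
    have h2 : ∀ k ∈ range (J + 1), (8 : ℝ) ^ k * ∑ r ∈ iv (J - k) R, ∑ s ∈ iv (J - k) S,
        ∑ q ∈ iv (J - k) M, aQ Qf k r s q ≤
        ∑ p ∈ Icc (-3 - (R + S + M)) (-(R + S + M)), 4 * ((8 : ℝ) ^ k *
          ∑ j ∈ iv (J - k) p, ∑ r ∈ iv (J - k) R, ∑ s ∈ iv (J - k) S, chi Qf k j r s) := by
      intro k _
      have h3 : ∀ r ∈ iv (J - k) R, ∀ s ∈ iv (J - k) S, ∑ q ∈ iv (J - k) M, aQ Qf k r s q ≤
          4 * ∑ p ∈ Icc (-3 - (R + S + M)) (-(R + S + M)), ∑ j ∈ iv (J - k) p,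
            chi Qf k j r s := by
        intro r hr s hs
        unfold aQ
        rw [sum_comm]
        have h4 := sum_le_sum fun d (hd : d ∈ Icc (-3 : ℤ) 0) =>
          refl_cells (M := M) hd hr hs (F := fun j => chi Qf k j r s)
            fun j => chi_nonneg Qf k j r s
        refine h4.trans (le_of_eq ?_)
        rw [sum_const, Int.card_Icc, nsmul_eq_mul]
        have t4 : (0 + 1 - (-3) : ℤ).toNat = 4 := rfl
        rw [t4]
        norm_num
      have h4 := sum_le_sum fun r (hr : r ∈ iv (J - k) R) =>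
        sum_le_sum fun s (hs : s ∈ iv (J - k) S) => h3 r hr s hs
      have h5 := mul_le_mul_of_nonneg_left h4 (show (0 : ℝ) ≤ 8 ^ k by positivity)
      refine h5.trans (le_of_eq ?_)
      have e1 : ∀ r ∈ iv (J - k) R, ∑ s ∈ iv (J - k) S,
          4 * ∑ p ∈ Icc (-3 - (R + S + M)) (-(R + S + M)), ∑ j ∈ iv (J - k) p, chi Qf k j r s =
          ∑ p ∈ Icc (-3 - (R + S + M)) (-(R + S + M)), 4 * ∑ j ∈ iv (J - k) p,
            ∑ s ∈ iv (J - k) S, chi Qf k j r s := by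
        intro r _
        rw [← mul_sum, sum_comm, mul_sum]
        refine sum_congr rfl fun p _ => ?_
        rw [sum_comm]
      rw [sum_congr rfl e1, sum_comm, mul_sum]
      refine sum_congr rfl fun p _ => ?_
      rw [← mul_sum, sum_comm]
      ring
    unfold T8
    refine (sum_le_sum h2).trans (le_of_eq ?_)
    rw [sum_comm]
    refine sum_congr rfl fun p _ => ?_
    rw [← mul_sum]
  have h2 : ∀ p ∈ Icc (-3 - (R + S + M)) (-(R + S + M)),
      4 * T8 (chi Qf) J p R S ≤ 4 * (P * 8 ^ J) := fun p _ =>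
    mul_le_mul_of_nonneg_left (hQ J hJ p R S) (by norm_num)
  have h3 := h1.trans (sum_le_sum h2)
  rw [sum_const, Int.card_Icc, nsmul_eq_mul] at h3
  have e : -(R + S + M) + 1 - (-3 - (R + S + M)) = 4 := by ring
  have t4 : (4 : ℤ).toNat = 4 := rfl
  rw [e, t4] at h3
  refine h3.trans (le_of_eq ?_)
  push_cast
  ring

section abs

variable {K : ℕ} {M : ℤ} {X : ℕ → ℤ → ℤ → ℤ → ℝ} {al : ℕ → ℤ → ℤ → Prop}

/-- mean over the alive square -/
def Hc (al : ℕ → ℤ → ℤ → Prop) (X : ℕ → ℤ → ℤ → ℤ → ℝ) (k : ℕ) (r s q : ℤ) : ℝ :=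
  if al k r s then ((4 : ℝ) ^ k)⁻¹ * ∑ x ∈ iv k r, ∑ z ∈ iv k s, X k q x z else 0

theorem Hc_nonneg (X0 : ∀ k q x z, 0 ≤ X k q x z) (k : ℕ) (r s q : ℤ) : 0 ≤ Hc al X k r s q := by
  unfold Hc
  split_ifs
  · exact mul_nonneg (by positivity) (sum_nonneg fun _ _ => sum_nonneg fun _ _ => X0 _ _ _ _)
  · exact le_rfl

theorem sum_iv_one (q : ℤ) (f : ℤ → ℝ) : ∑ p ∈ iv 1 q, f p = f (2 * q) + f (2 * q + 1) := by
  have e : iv 1 q = {2 * q, 2 * q + 1} := by
    ext x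
    unfold iv
    rw [mem_Ico, mem_insert, mem_singleton]
    omega
  rw [e, sum_pair (by omega)]

/-- the mean of the children is at most the parent -/
theorem Hc_sup (X0 : ∀ k q x z, 0 ≤ X k q x z)
    (Xs : ∀ k < K, ∀ q x z, X k (2 * q) x z + X k (2 * q + 1) x z ≤ 2 * X (k + 1) q x z)
    (hal : ∀ k < K, ∀ r s, ∀ i ∈ iv 1 r, ∀ j ∈ iv 1 s, al k i j → al (k + 1) r s) {k : ℕ}
    (hk : k < K) (r s q : ℤ) : c8 (Hc al X k) r s q ≤ 8 * Hc al X (k + 1) r s q := by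
  by_cases h : al (k + 1) r s
  · have h1 : c8 (Hc al X k) r s q ≤ ∑ i ∈ iv 1 r, ∑ j ∈ iv 1 s, ∑ p ∈ iv 1 q,
        ((4 : ℝ) ^ k)⁻¹ * ∑ x ∈ iv k i, ∑ z ∈ iv k j, X k p x z := by
      unfold c8
      refine sum_le_sum fun i _ => sum_le_sum fun j _ => sum_le_sum fun p _ => ?_
      unfold Hc
      split_ifs
      · exact le_rfl
      · exact mul_nonneg (by positivity) (sum_nonneg fun _ _ => sum_nonneg fun _ _ => X0 _ _ _ _)
    have e1 : ∀ i j, ∑ p ∈ iv 1 q, ((4 : ℝ) ^ k)⁻¹ * ∑ x ∈ iv k i, ∑ z ∈ iv k j, X k p x z =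
        ((4 : ℝ) ^ k)⁻¹ * ∑ x ∈ iv k i, ∑ z ∈ iv k j, (X k (2 * q) x z + X k (2 * q + 1) x z) := by
      intro i j
      rw [sum_iv_one, ← mul_add, ← sum_add_distrib]
      congr 1
      refine sum_congr rfl fun x _ => ?_
      rw [← sum_add_distrib]
    have h2 : ∑ i ∈ iv 1 r, ∑ j ∈ iv 1 s, ∑ p ∈ iv 1 q,
        ((4 : ℝ) ^ k)⁻¹ * ∑ x ∈ iv k i, ∑ z ∈ iv k j, X k p x z ≤
        ∑ i ∈ iv 1 r, ∑ j ∈ iv 1 s, ((4 : ℝ) ^ k)⁻¹ * ∑ x ∈ iv k i, ∑ z ∈ iv k j,
          2 * X (k + 1) q x z := by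
      simp only [e1]
      refine sum_le_sum fun i _ => sum_le_sum fun j _ => mul_le_mul_of_nonneg_left ?_
        (by positivity)
      exact sum_le_sum fun x _ => sum_le_sum fun z _ => Xs k hk q x z
    refine (h1.trans h2).trans (le_of_eq ?_)
    unfold Hc
    rw [if_pos h, iv_top k r]
    have e2 : ∀ x, ∑ z ∈ iv (k + 1) s, X (k + 1) q x z =
        ∑ j ∈ iv 1 s, ∑ z ∈ iv k j, X (k + 1) q x z := fun x => iv_top k s _
    simp only [e2, ← mul_sum]
    have e3 : ∀ i, ∑ j ∈ iv 1 s, ∑ x ∈ iv k i, ∑ z ∈ iv k j, X (k + 1) q x z =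
        ∑ x ∈ iv k i, ∑ j ∈ iv 1 s, ∑ z ∈ iv k j, X (k + 1) q x z := fun i => sum_comm
    simp only [e3]
    rw [pow_succ, mul_inv]
    ring
  · have h1 : c8 (Hc al X k) r s q = 0 := by
      unfold c8
      refine sum_eq_zero fun i hi => sum_eq_zero fun j hj => sum_eq_zero fun p _ => ?_
      unfold Hc
      rw [if_neg fun h' => h (hal k hk r s i hi j hj h')]
    rw [h1]
    exact mul_nonneg (by norm_num) (Hc_nonneg X0 _ _ _ _)

/-- **The charge of a dominated function.** -/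
theorem chg_abs {Qf : ℕ → ℤ → ℤ → ℤ → Prop} {P : ℝ} (hP : 0 ≤ P)
    (hQ : ∀ J ≤ K, ∀ t R S, T8 (chi Qf) J t R S ≤ P * 8 ^ J)
    (X0 : ∀ k q x z, 0 ≤ X k q x z) (Xo : ∀ k q x z, q ∉ iv (K - k) M → X k q x z = 0)
    (Xs : ∀ k < K, ∀ q x z, X k (2 * q) x z + X k (2 * q + 1) x z ≤ 2 * X (k + 1) q x z)
    (hal : ∀ k < K, ∀ r s, ∀ i ∈ iv 1 r, ∀ j ∈ iv 1 s, al k i j → al (k + 1) r s)
    {lam : ℝ} (hl : 0 < lam) {n : ℕ}
    (cap : ∀ k ≤ K, ∀ r s q, al k r s →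
      ∑ x ∈ iv k r, ∑ z ∈ iv k s, X k q x z ≤ 4 ^ k * (2 ^ n * lam))
    {φ : ℕ → ℤ → ℤ → ℤ → ℝ} (φ0 : ∀ k x0 x z, 0 ≤ φ k x0 x z) {e : ℝ}
    (hφ : ∀ k ≤ K, ∀ j x z, ∑ x0 ∈ iv k j, φ k x0 x z ≤ e * 2 ^ k)
    {f : ℕ → ℤ → ℤ → ℤ → ℝ} (he : 0 ≤ e)
    (hf : ∀ k ≤ K, ∀ x0 x z, f k x0 x z ≤
      ∑ d ∈ Icc (-3 : ℤ) 0, X k (d - (ix k x0 + ix k x + ix k z)) x z) (t R S : ℤ) :
    ∑ x0 ∈ iv K t, ∑ k ∈ range (K + 1), ∑ x ∈ iv K R, ∑ z ∈ iv K S,
      (if Qf k (ix k x0) (ix k x) (ix k z) ∧ al k (ix k x) (ix k z) then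
        φ k x0 x z * f k x0 x z else 0) ≤
    16 * P * e * 8 ^ K * (lam + n * Hc al X K R S M) := by
  -- one scale
  have one : ∀ k ∈ range (K + 1), ∑ x0 ∈ iv K t, ∑ x ∈ iv K R, ∑ z ∈ iv K S,
      (if Qf k (ix k x0) (ix k x) (ix k z) ∧ al k (ix k x) (ix k z) then
        φ k x0 x z * f k x0 x z else 0) ≤
      e * (8 ^ k * ∑ r ∈ iv (K - k) R, ∑ s ∈ iv (K - k) S, ∑ q ∈ iv (K - k) M,
        aQ Qf k r s q * Hc al X k r s q) := by
    intro k hk'
    have hk : k ≤ K := by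
      have := mem_range.1 hk'
      omega
    -- at one point of the square, one `x0`-cell
    have p1 : ∀ j x z, ∑ x0 ∈ iv k j, (if Qf k (ix k x0) (ix k x) (ix k z) ∧
        al k (ix k x) (ix k z) then φ k x0 x z * f k x0 x z else 0) ≤
        e * 2 ^ k * (if al k (ix k x) (ix k z) then chi Qf k j (ix k x) (ix k z) *
          ∑ d ∈ Icc (-3 : ℤ) 0, X k (d - (j + ix k x + ix k z)) x z else 0) := by
      intro j x z
      have hY : 0 ≤ ∑ d ∈ Icc (-3 : ℤ) 0, X k (d - (j + ix k x + ix k z)) x z :=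
        sum_nonneg fun _ _ => X0 _ _ _ _
      by_cases ha : al k (ix k x) (ix k z)
      · by_cases hq : Qf k j (ix k x) (ix k z)
        · rw [if_pos ha]
          unfold chi
          rw [if_pos hq, one_mul]
          have h1 : ∀ x0 ∈ iv k j, (if Qf k (ix k x0) (ix k x) (ix k z) ∧
              al k (ix k x) (ix k z) then φ k x0 x z * f k x0 x z else 0) ≤
              φ k x0 x z * ∑ d ∈ Icc (-3 : ℤ) 0, X k (d - (j + ix k x + ix k z)) x z := by
            intro x0 h0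
            have e0 : ix k x0 = j := mem_iv.1 h0
            rw [e0, if_pos ⟨hq, ha⟩]
            refine mul_le_mul_of_nonneg_left ?_ (φ0 _ _ _ _)
            have h2 := hf k hk x0 x z
            rwa [e0] at h2
          refine (sum_le_sum h1).trans ?_
          rw [← sum_mul]
          exact mul_le_mul_of_nonneg_right (hφ k hk j x z) hY
        · rw [if_pos ha]
          unfold chi
          rw [if_neg hq, zero_mul, mul_zero]
          refine le_of_eq (sum_eq_zero fun x0 h0 => ?_)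
          have e0 : ix k x0 = j := mem_iv.1 h0
          rw [e0, if_neg fun h => hq h.1]
      · rw [if_neg ha, mul_zero]
        refine le_of_eq (sum_eq_zero fun x0 h0 => ?_)
        rw [if_neg fun h => ha h.2]
    -- reorder
    have p2 : ∑ x0 ∈ iv K t, ∑ x ∈ iv K R, ∑ z ∈ iv K S,
        (if Qf k (ix k x0) (ix k x) (ix k z) ∧ al k (ix k x) (ix k z) then
          φ k x0 x z * f k x0 x z else 0) =
        ∑ x ∈ iv K R, ∑ z ∈ iv K S, ∑ j ∈ iv (K - k) t, ∑ x0 ∈ iv k j,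
        (if Qf k (ix k x0) (ix k x) (ix k z) ∧ al k (ix k x) (ix k z) then
          φ k x0 x z * f k x0 x z else 0) := by
      rw [sum_comm]
      refine sum_congr rfl fun x _ => ?_
      rw [sum_comm]
      refine sum_congr rfl fun z _ => ?_
      exact (H922.iv_iv hk t _).symm
    rw [p2]
    refine (sum_le_sum fun x _ => sum_le_sum fun z _ => sum_le_sum fun j _ => p1 j x z).trans ?_
    -- sums over the squares
    have p3 : ∀ G : ℤ → ℤ → ℤ → ℤ → ℝ, ∑ x ∈ iv K R, ∑ z ∈ iv K S, G (ix k x) (ix k z) x z =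
        ∑ r ∈ iv (K - k) R, ∑ s ∈ iv (K - k) S, ∑ x ∈ iv k r, ∑ z ∈ iv k s, G r s x z := by
      intro G
      rw [← H922.iv_iv hk R fun x => ∑ z ∈ iv K S, G (ix k x) (ix k z) x z]
      refine sum_congr rfl fun r _ => ?_
      rw [sum_comm' (s := iv (K - k) S) (t := fun _ => iv k r) (t' := iv k r)
        (s' := fun _ => iv (K - k) S) (fun a b => by tauto)]
      refine sum_congr rfl fun x hx => ?_
      have ex : ix k x = r := mem_iv.1 hx
      rw [← H922.iv_iv hk S fun z => G (ix k x) (ix k z) x z]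
      refine sum_congr rfl fun s _ => sum_congr rfl fun z hz => ?_
      have ez : ix k z = s := mem_iv.1 hz
      rw [ex, ez]
    rw [p3 fun r s x z => ∑ j ∈ iv (K - k) t, e * 2 ^ k * (if al k r s then chi Qf k j r s *
      ∑ d ∈ Icc (-3 : ℤ) 0, X k (d - (j + r + s)) x z else 0)]
    rw [mul_sum, mul_sum]
    refine sum_le_sum fun r _ => ?_
    rw [mul_sum, mul_sum]
    refine sum_le_sum fun s _ => ?_
    -- one square
    have p4 : ∑ x ∈ iv k r, ∑ z ∈ iv k s, ∑ j ∈ iv (K - k) t, e * 2 ^ k *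
        (if al k r s then chi Qf k j r s *
          ∑ d ∈ Icc (-3 : ℤ) 0, X k (d - (j + r + s)) x z else 0) =
        e * 8 ^ k * ∑ d ∈ Icc (-3 : ℤ) 0, ∑ j ∈ iv (K - k) t,
          chi Qf k j r s * Hc al X k r s (d - (j + r + s)) := by
      unfold Hc
      by_cases ha : al k r s
      · simp only [if_pos ha]
        have e8 : (8 : ℝ) ^ k = 2 ^ k * 4 ^ k := by rw [← mul_pow]; norm_num
        have h4 : (4 : ℝ) ^ k ≠ 0 := by positivity
        have e5 : ∀ d j, chi Qf k j r s * (((4 : ℝ) ^ k)⁻¹ * ∑ x ∈ iv k r, ∑ z ∈ iv k s,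
            X k (d - (j + r + s)) x z) = ((4 : ℝ) ^ k)⁻¹ * ∑ x ∈ iv k r, ∑ z ∈ iv k s,
            chi Qf k j r s * X k (d - (j + r + s)) x z := by
          intro d j
          simp only [← mul_sum]
          ring
        simp only [e5]
        have e6 : e * 8 ^ k * ∑ d ∈ Icc (-3 : ℤ) 0, ∑ j ∈ iv (K - k) t, ((4 : ℝ) ^ k)⁻¹ *
            ∑ x ∈ iv k r, ∑ z ∈ iv k s, chi Qf k j r s * X k (d - (j + r + s)) x z =
            e * 2 ^ k * ∑ d ∈ Icc (-3 : ℤ) 0, ∑ j ∈ iv (K - k) t,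
            ∑ x ∈ iv k r, ∑ z ∈ iv k s, chi Qf k j r s * X k (d - (j + r + s)) x z := by
          simp only [← mul_sum]
          rw [e8]
          field_simp
        rw [e6]
        simp only [← mul_sum]
        congr 1
        have e7 : ∀ x z, ∑ j ∈ iv (K - k) t, chi Qf k j r s *
            ∑ d ∈ Icc (-3 : ℤ) 0, X k (d - (j + r + s)) x z =
            ∑ d ∈ Icc (-3 : ℤ) 0, ∑ j ∈ iv (K - k) t,
              chi Qf k j r s * X k (d - (j + r + s)) x z := by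
          intro x z
          rw [sum_comm]
          refine sum_congr rfl fun j _ => ?_
          rw [mul_sum]
        simp only [e7]
        have e8' : ∀ x, ∑ z ∈ iv k s, ∑ d ∈ Icc (-3 : ℤ) 0, ∑ j ∈ iv (K - k) t,
            chi Qf k j r s * X k (d - (j + r + s)) x z =
            ∑ d ∈ Icc (-3 : ℤ) 0, ∑ j ∈ iv (K - k) t, ∑ z ∈ iv k s,
            chi Qf k j r s * X k (d - (j + r + s)) x z := by
          intro x
          rw [sum_comm]
          refine sum_congr rfl fun d _ => ?_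
          rw [sum_comm]
        simp only [e8']
        rw [sum_comm]
        refine sum_congr rfl fun d _ => ?_
        rw [sum_comm]
        refine sum_congr rfl fun j _ => ?_
        simp only [mul_sum]
      · simp only [if_neg ha]
        simp
    rw [p4]
    have p5 : ∑ d ∈ Icc (-3 : ℤ) 0, ∑ j ∈ iv (K - k) t,
        chi Qf k j r s * Hc al X k r s (d - (j + r + s)) ≤
        ∑ q ∈ iv (K - k) M, aQ Qf k r s q * Hc al X k r s q := by
      have h1 : ∀ d ∈ Icc (-3 : ℤ) 0, ∑ j ∈ iv (K - k) t,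
          chi Qf k j r s * Hc al X k r s (d - (j + r + s)) ≤
          ∑ q ∈ iv (K - k) M, chi Qf k (d - (q + r + s)) r s * Hc al X k r s q := by
        intro d _
        have h2 := PL.H588.sum_refl_le (K - k) t M (d - (r + s))
          (fun q => chi Qf k (d - (q + r + s)) r s * Hc al X k r s q)
          (fun q => mul_nonneg (chi_nonneg _ _ _ _ _) (Hc_nonneg X0 _ _ _ _))
        refine le_trans (le_of_eq ?_) h2
        refine sum_congr rfl fun j _ => ?_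
        have e1 : d - (r + s) - j = d - (j + r + s) := by ring
        have e2 : d - (d - (j + r + s) + r + s) = j := by ring
        rw [e1]
        split_ifs with h
        · rw [e2]
        · have : Hc al X k r s (d - (j + r + s)) = 0 := by
            unfold Hc
            split_ifs
            · rw [sum_eq_zero fun x _ => sum_eq_zero fun z _ => Xo k _ x z h, mul_zero]
            · rfl
          rw [this, mul_zero]
      refine (sum_le_sum h1).trans (le_of_eq ?_)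
      rw [sum_comm]
      refine sum_congr rfl fun q _ => ?_
      rw [← sum_mul]
      rfl
    have h6 := mul_le_mul_of_nonneg_left p5 (show (0 : ℝ) ≤ e * 8 ^ k by positivity)
    refine h6.trans (le_of_eq ?_)
    ring
  rw [sum_comm]
  refine (sum_le_sum one).trans ?_
  have e1 : ∑ k ∈ range (K + 1), e * ((8 : ℝ) ^ k * ∑ r ∈ iv (K - k) R, ∑ s ∈ iv (K - k) S,
      ∑ q ∈ iv (K - k) M, aQ Qf k r s q * Hc al X k r s q) =
      e * T8 (fun k r s q => aQ Qf k r s q * Hc al X k r s q) K R S M := by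
    unfold T8
    rw [mul_sum]
  rw [e1]
  have h2 := carl_log (a := aQ Qf) (H := Hc al X) (K := K) (P := 16 * P)
    (fun k _ r s q => aQ_nonneg Qf k r s q) (fun k _ r s q => Hc_nonneg X0 k r s q)
    (fun k hk r s q => Hc_sup X0 Xs hal hk r s q) (by positivity)
    (fun J hJ R S M => pack_aQ hQ hJ R S M) hl (n := n)
    (fun k hk r s q _ => by
      unfold Hc
      split_ifs with ha
      · have h3 := mul_le_mul_of_nonneg_left (cap k hk r s q ha)
          (show (0 : ℝ) ≤ ((4 : ℝ) ^ k)⁻¹ by positivity)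
        rwa [inv_mul_cancel_left₀ (by positivity)] at h3
      · positivity) R S M
  refine (mul_le_mul_of_nonneg_left h2 he).trans (le_of_eq ?_)
  ring

end abs

section weight

variable {ι : Type*} [Fintype ι] [DecidableEq ι] {l : ℝ} {K : ℕ} {M : ℤ}
  {G Kq : ℤ → ℕ → ℤ → Matrix ι ι ℝ} {al : ℕ → ℤ → ℤ → Prop}

/-- the forms of `1 - S` -/
def XT (l : ℝ) (K : ℕ) (M : ℤ) (Kq : ℤ → ℕ → ℤ → Matrix ι ι ℝ) (v : ℤ → ℤ → ι → ℝ) (k : ℕ)
    (q x z : ℤ) : ℝ := v x z ⬝ᵥ WT l K M (Kq x) k q *ᵥ v x z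

theorem XT_nonneg (hT : ∀ x, Tr l K (G x) (Kq x)) (v : ℤ → ℤ → ι → ℝ) (k : ℕ) (q x z : ℤ) :
    0 ≤ XT l K M Kq v k q x z := H420.quad_nonneg (H652.WT_psd (hT x) k q) _

theorem XT_le (hT : ∀ x, Tr l K (G x) (Kq x)) (v : ℤ → ℤ → ι → ℝ) (k : ℕ) (q x z : ℤ) :
    XT l K M Kq v k q x z ≤ v x z ⬝ᵥ v x z := by
  have h := H420.quad_nonneg (H652.WT_le_one (M := M) (hT x) k q) (v x z)
  rw [sub_mulVec, one_mulVec, dotProduct_sub] at h
  unfold XT
  linarith

theorem XT_sup (hT : ∀ x, Tr l K (G x) (Kq x)) (v : ℤ → ℤ → ι → ℝ) {k : ℕ} (hk : k < K)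
    (q x z : ℤ) : XT l K M Kq v k (2 * q) x z + XT l K M Kq v k (2 * q + 1) x z ≤
      2 * XT l K M Kq v (k + 1) q x z := by
  have h1 := H652.WT_drift l K M (Kq x) k hk q
  have h2 := H420.quad_nonneg (H652.ET_psd (M := M) (hT x) (k + 1) q) (v x z)
  unfold XT
  rw [← dotProduct_add, ← add_mulVec, h1, smul_mulVec, dotProduct_smul, sub_mulVec,
    dotProduct_sub, smul_eq_mul]
  linarith

theorem XT_top (hT : ∀ x, Tr l K (G x) (Kq x)) (v : ℤ → ℤ → ι → ℝ) (x z : ℤ) :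
    XT l K M Kq v K M x z ≤ (2 * l)⁻¹ * (v x z ⬝ᵥ G x K M *ᵥ v x z) := by
  have hl := (hT x).l_pos
  have hs := Real.sqrt_pos.2 hl
  unfold XT
  rw [H652.WT_in (show M ∈ iv (K - K) M by rw [Nat.sub_self, iv_zero, mem_singleton])]
  have h1 := H186.one_sub_le ((hT x).pdK K M) hl ((hT x).sq K M) (v x z)
  rw [div_eq_inv_mul] at h1
  rw [sub_mulVec, one_mulVec, dotProduct_sub, smul_mulVec, dotProduct_smul, smul_eq_mul]
  linarith

/-- the start of the window of a tie -/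
theorem st_tie {c : ℤ} (hc : c = -1 ∨ c = -3) (k : ℕ) (x0 x z : ℤ) :
    -3 ≤ st c x0 x k (ix k z) / 2 ^ k + (ix k x0 + ix k x + ix k z) ∧
      st c x0 x k (ix k z) / 2 ^ k + (ix k x0 + ix k x + ix k z) ≤ -1 := by
  have h0 : x0 ∈ iv k (ix k x0) := mem_iv.2 rfl
  have h1 : x ∈ iv k (ix k x) := mem_iv.2 rfl
  generalize ix k x0 = j at *
  generalize ix k x = r at *
  generalize ix k z = s at *
  unfold iv at h0 h1
  rw [mem_Ico] at h0 h1
  have hp : (0 : ℤ) < 2 ^ k := by positivity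
  unfold st
  have hp1 : (1 : ℤ) ≤ 2 ^ k := by omega
  generalize (2 : ℤ) ^ k = p at *
  have b1 : (-3 - (j + r + s)) ≤ (c + 1 - x0 - x - p * (s + 1)) / p := by
    rw [Int.le_ediv_iff_mul_le hp]
    have e2 : (-3 - (j + r + s)) * p = -3 * p - (p * j + p * r + p * s) := by ring
    have e3 : p * (s + 1) = p * s + p := by ring
    rw [e2, e3]
    rcases hc with rfl | rfl <;> linarith [h0.2, h1.2]
  have b2 : (c + 1 - x0 - x - p * (s + 1)) / p < -(j + r + s) := by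
    rw [Int.ediv_lt_iff_lt_mul hp]
    have e2 : -(j + r + s) * p = -(p * j + p * r + p * s) := by ring
    have e3 : p * (s + 1) = p * s + p := by ring
    rw [e2, e3]
    rcases hc with rfl | rfl <;> linarith [h0.1, h1.1]
  omega

theorem sum_four {F : ℤ → ℝ} (hF : ∀ d, 0 ≤ F d) {a : ℤ} (h1 : -3 ≤ a) (h2 : a ≤ -1) :
    F a + F (a + 1) ≤ ∑ d ∈ Icc (-3 : ℤ) 0, F d := by
  have e : ({a, a + 1} : Finset ℤ) ⊆ Icc (-3 : ℤ) 0 := by
    intro x hx
    rw [mem_insert, mem_singleton] at hx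
    rw [mem_Icc]
    omega
  have h := sum_le_sum_of_subset_of_nonneg e (f := F) fun d _ _ => hF d
  rwa [sum_pair (by omega)] at h

/-- `Th` is dominated by four values of `1 - S` -/
theorem Th_four (hT : ∀ x, Tr l K (G x) (Kq x)) (v : ℤ → ℤ → ι → ℝ) {c : ℤ}
    (hc : c = -1 ∨ c = -3) {k : ℕ} (hk : k ≤ K) (x0 x z : ℤ) :
    v x z ⬝ᵥ Th l K M (Kq x) c x0 x k (ix k z) *ᵥ v x z ≤
      ∑ d ∈ Icc (-3 : ℤ) 0, XT l K M Kq v k (d - (ix k x0 + ix k x + ix k z)) x z := by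
  have h1 := H420.quad_nonneg (H652.Th_le (M := M) (hT x) c x0 x hk (ix k z)) (v x z)
  rw [sub_mulVec, dotProduct_sub, add_mulVec, dotProduct_add] at h1
  obtain ⟨a1, a2⟩ := st_tie hc k x0 x z
  have h2 := sum_four (F := fun d => XT l K M Kq v k (d - (ix k x0 + ix k x + ix k z)) x z)
    (fun d => XT_nonneg hT v k _ x z) a1 a2
  have e1 : st c x0 x k (ix k z) / 2 ^ k + (ix k x0 + ix k x + ix k z) -
      (ix k x0 + ix k x + ix k z) = st c x0 x k (ix k z) / 2 ^ k := by ring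
  have e2 : st c x0 x k (ix k z) / 2 ^ k + (ix k x0 + ix k x + ix k z) + 1 -
      (ix k x0 + ix k x + ix k z) = st c x0 x k (ix k z) / 2 ^ k + 1 := by ring
  rw [e1, e2] at h2
  unfold XT at h2 ⊢
  linarith

/-- **The charge of `Th` on the affected cubes.** -/
theorem chg_T {Qf : ℕ → ℤ → ℤ → ℤ → Prop} {P : ℝ} (hP : 0 ≤ P)
    (hQ : ∀ J ≤ K, ∀ t R S, T8 (chi Qf) J t R S ≤ P * 8 ^ J)
    (hT : ∀ x, Tr l K (G x) (Kq x)) (v : ℤ → ℤ → ι → ℝ) {c : ℤ} (hc : c = -1 ∨ c = -3)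
    (hal : ∀ k < K, ∀ r s, ∀ i ∈ iv 1 r, ∀ j ∈ iv 1 s, al k i j → al (k + 1) r s)
    {lam : ℝ} (hl : 0 < lam) {n : ℕ}
    (cap : ∀ k ≤ K, ∀ r s, al k r s →
      ∑ x ∈ iv k r, ∑ z ∈ iv k s, v x z ⬝ᵥ v x z ≤ 4 ^ k * (2 ^ n * lam))
    {φ : ℕ → ℤ → ℤ → ℤ → ℝ} (φ0 : ∀ k x0 x z, 0 ≤ φ k x0 x z) {e : ℝ} (he : 0 ≤ e)
    (hφ : ∀ k ≤ K, ∀ j x z, ∑ x0 ∈ iv k j, φ k x0 x z ≤ e * 2 ^ k) (t R S : ℤ) :
    ∑ x0 ∈ iv K t, ∑ k ∈ range (K + 1), ∑ x ∈ iv K R, ∑ z ∈ iv K S,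
      (if Qf k (ix k x0) (ix k x) (ix k z) ∧ al k (ix k x) (ix k z) then
        φ k x0 x z * (v x z ⬝ᵥ Th l K M (Kq x) c x0 x k (ix k z) *ᵥ v x z) else 0) ≤
    16 * P * e * (lam * 8 ^ K + n * (2 ^ K * ∑ x ∈ iv K R, ∑ z ∈ iv K S,
      (2 * l)⁻¹ * (v x z ⬝ᵥ G x K M *ᵥ v x z))) := by
  have h1 := chg_abs (K := K) (M := M) (X := XT l K M Kq v) (al := al) hP hQ
    (fun k q x z => XT_nonneg hT v k q x z)
    (fun k q x z h => by unfold XT; rw [H652.WT_out h, zero_mulVec, dotProduct_zero])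
    (fun k hk q x z => XT_sup hT v hk q x z) hal hl (n := n)
    (fun k hk r s q ha => le_trans (sum_le_sum fun x _ => sum_le_sum fun z _ =>
      XT_le hT v k q x z) (cap k hk r s ha)) φ0 hφ
    (f := fun k x0 x z => v x z ⬝ᵥ Th l K M (Kq x) c x0 x k (ix k z) *ᵥ v x z) he
    (fun k hk x0 x z => Th_four hT v hc hk x0 x z) t R S
  refine h1.trans ?_
  have h2 : 8 ^ K * Hc al (XT l K M Kq v) K R S M ≤ 2 ^ K * ∑ x ∈ iv K R, ∑ z ∈ iv K S,
      (2 * l)⁻¹ * (v x z ⬝ᵥ G x K M *ᵥ v x z) := by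
    have h3 : Hc al (XT l K M Kq v) K R S M ≤ ((4 : ℝ) ^ K)⁻¹ * ∑ x ∈ iv K R, ∑ z ∈ iv K S,
        XT l K M Kq v K M x z := by
      unfold Hc
      split_ifs
      · exact le_rfl
      · exact mul_nonneg (by positivity) (sum_nonneg fun x _ => sum_nonneg fun z _ =>
          XT_nonneg hT v K M x z)
    have h4 : ∑ x ∈ iv K R, ∑ z ∈ iv K S, XT l K M Kq v K M x z ≤ ∑ x ∈ iv K R, ∑ z ∈ iv K S,
        (2 * l)⁻¹ * (v x z ⬝ᵥ G x K M *ᵥ v x z) :=
      sum_le_sum fun x _ => sum_le_sum fun z _ => XT_top hT v x z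
    have e8 : (8 : ℝ) ^ K = 2 ^ K * 4 ^ K := by rw [← mul_pow]; norm_num
    calc 8 ^ K * Hc al (XT l K M Kq v) K R S M ≤ 8 ^ K * (((4 : ℝ) ^ K)⁻¹ * ∑ x ∈ iv K R,
          ∑ z ∈ iv K S, XT l K M Kq v K M x z) := mul_le_mul_of_nonneg_left h3 (by positivity)
      _ = 2 ^ K * ∑ x ∈ iv K R, ∑ z ∈ iv K S, XT l K M Kq v K M x z := by
        rw [e8]
        field_simp
      _ ≤ _ := mul_le_mul_of_nonneg_left h4 (by positivity)
  have h3 := mul_le_mul_of_nonneg_left h2 (show (0 : ℝ) ≤ 16 * P * e * n by positivity)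
  calc 16 * P * e * 8 ^ K * (lam + n * Hc al (XT l K M Kq v) K R S M) =
      16 * P * e * (lam * 8 ^ K) + 16 * P * e * n * (8 ^ K * Hc al (XT l K M Kq v) K R S M) := by
        ring
    _ ≤ 16 * P * e * (lam * 8 ^ K) + 16 * P * e * n * (2 ^ K * ∑ x ∈ iv K R, ∑ z ∈ iv K S,
      (2 * l)⁻¹ * (v x z ⬝ᵥ G x K M *ᵥ v x z)) := by linarith
    _ = _ := by ring

end weight

end

end Vale.Agent.P141.H989
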