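import Vale.Agent.P141.H989.FCross

/-!
# P141, line (A), increasing part: the stack next to the births of the second slot

`gp_tie` : packing of the cubes over the affected squares of the face `(x₀, x₁, x₂)`, tied up to a
window; `aff_gen` : the energy of the stack on any packed predicate; `crB` : closed number.
-/

namespace Vale.Agent.P141.H989.CrB

open Finset Matrix
open Vale.Agent.P075 (Ix val)
open Vale.Agent.P141.PL (Pt iv cb cx ix mem_iv ix_ix)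
open Vale.Agent.P141.PL.H315 (Tri A2 avg)
open Vale.Agent.P141.H48 (US ES BSl sst)
open Vale.Agent.P141.H103 (GW)
open Vale.Agent.P141.H305 (Cls ClsM kapM)
open Vale.Agent.P141.H401 (StQ cA mC qA qB qC cb)
open Vale.Agent.P141.H408
open Vale.Agent.P141.H420 (Tr)
open Vale.Agent.P141.H460 (QPack GPack Lin iv_const ix_mem)
open Vale.Agent.P141.H505.Sk1 (W3 eT Ch)
open Vale.Agent.P141.H576 (QD Dd_sst QD_pack)
open Vale.Agent.P141.H652 (Th Th_psd)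
open Vale.Agent.P141.H677 (KT GT cP rt kF tr_T)
open Vale.Agent.P141.H808 (cS aS thS)
open Vale.Agent.P141.H989.FX

noncomputable section

open scoped Classical

/-! ### Packing -/

/-- reflected cells, window `E` -/
theorem refl_win {i : ℕ} {R S M d E r s : ℤ} (hd : |d| ≤ E) (hr : r ∈ iv i R)
    (hs : s ∈ iv i S) {F : ℤ → ℝ} (hF : ∀ j, 0 ≤ F j) :
    ∑ q ∈ iv i M, F (d - r - s - q) ≤
      ∑ p ∈ Icc (-3 - E - (R + S + M)) (E - (R + S + M)), ∑ j ∈ iv i p, F j := by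
  have hdis : ∀ a ∈ Icc (-3 - E - (R + S + M)) (E - (R + S + M)),
      ∀ b ∈ Icc (-3 - E - (R + S + M)) (E - (R + S + M)), a ≠ b → Disjoint (iv i a) (iv i b) := by
    intro a _ b _ hab
    rw [disjoint_left]
    intro x hx hx'
    exact hab ((mem_iv.1 hx).symm.trans (mem_iv.1 hx'))
  rw [← sum_biUnion hdis]
  have hi : Set.InjOn (fun q => d - r - s - q) (iv i M : Set ℤ) := by
    intro x _ y _ h
    simp only at h
    omega
  rw [← sum_image (f := F) (g := fun q => d - r - s - q) hi]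
  refine sum_le_sum_of_subset_of_nonneg ?_ fun n _ _ => hF n
  intro x hx
  obtain ⟨q, hq, rfl⟩ := mem_image.1 hx
  rw [mem_biUnion]
  refine ⟨ix i (d - r - s - q), ?_, mem_iv.2 rfl⟩
  unfold PL.iv at hr hs hq
  rw [mem_Ico] at hr hs hq
  rw [mem_Icc]
  obtain ⟨hd1, hd2⟩ := abs_le.1 hd
  have hE : 0 ≤ E := (abs_nonneg d).trans hd
  have hp : (0 : ℤ) < 2 ^ i := by positivity
  have hp1 : (1 : ℤ) ≤ 2 ^ i := by omega
  unfold PL.ix
  generalize (2 : ℤ) ^ i = p at *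
  have hEp : E ≤ E * p := by nlinarith
  constructor
  · rw [Int.le_ediv_iff_mul_le hp]
    have e2 : (-3 - E - (R + S + M)) * p = -3 * p - E * p - (p * R + p * S + p * M) := by ring
    rw [e2]
    linarith [hr.2, hs.2, hq.2]
  · have : d - r - s - q < (E - (R + S + M) + 1) * p := by
      have e3 : (E - (R + S + M) + 1) * p = E * p + p - (p * R + p * S + p * M) := by ring
      rw [e3]
      linarith [hr.1, hs.1, hq.1]
    have h2 := (Int.ediv_lt_iff_lt_mul hp).2 this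
    omega

/-- the cube over the square of the face `(x₀, x₁, x₂)` with tie constant `e` -/
def nE (e : ℤ) (Q : ℕ → Pt → Prop) (k : ℕ) (m : Pt) : Prop :=
  Q k (m.1, m.2.1, e - m.1 - m.2.1 - m.2.2)

theorem packE {n : ℕ} {Q : ℕ → Pt → Prop} {cq : ℝ} (hQ : QPack n Q cq) {e : ℤ} {E : ℕ}
    (he : |e| ≤ (E : ℤ)) {k : ℕ} (hk : k ≤ n) (m : Pt) :
    ∑ y ∈ PL.cb k m, ∑ j ∈ range (k + 1), (if nE e Q j (cx j y) then (1 : ℝ) else 0) ≤
      (2 * E + 4) * cq * 8 ^ k := by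
  have key : ∀ y0 ∈ iv k m.1, ∑ y1 ∈ iv k m.2.1, ∑ y3 ∈ iv k m.2.2, ∑ j ∈ range (k + 1),
      (if nE e Q j (cx j (y0, y1, y3)) then (1 : ℝ) else 0) ≤ (2 * E + 4) * cq * 4 ^ k := by
    intro y0 hy0
    have e1 : ∑ y1 ∈ iv k m.2.1, ∑ y3 ∈ iv k m.2.2, ∑ j ∈ range (k + 1),
        (if nE e Q j (cx j (y0, y1, y3)) then (1 : ℝ) else 0) =
        ∑ j ∈ range (k + 1), ∑ a ∈ iv (k - j) m.2.1, ∑ b ∈ iv (k - j) m.2.2,
          (if Q j (ix j y0, a, e - ix j y0 - a - b) then (4 : ℝ) ^ j else 0) := by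
      rw [sum_congr rfl fun y1 _ => sum_comm, sum_comm]
      refine sum_congr rfl fun j hj => ?_
      have hj' : j ≤ k := by rw [mem_range] at hj; omega
      have e2 : ∀ y1 ∈ iv k m.2.1, ∑ y3 ∈ iv k m.2.2,
          (if nE e Q j (cx j (y0, y1, y3)) then (1 : ℝ) else 0) =
          2 ^ j * ∑ b ∈ iv (k - j) m.2.2,
            (if Q j (ix j y0, ix j y1, e - ix j y0 - ix j y1 - b) then (1 : ℝ) else 0) := by
        intro y1 _
        rw [← iv_const hj' m.2.2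
          (fun b => if Q j (ix j y0, ix j y1, e - ix j y0 - ix j y1 - b)
            then (1 : ℝ) else 0)]
        rfl
      rw [sum_congr rfl e2, iv_const hj' m.2.1 (fun a => 2 ^ j * ∑ b ∈ iv (k - j) m.2.2,
        (if Q j (ix j y0, a, e - ix j y0 - a - b) then (1 : ℝ) else 0)), mul_sum]
      simp only [mul_sum]
      refine sum_congr rfl fun a _ => sum_congr rfl fun b _ => ?_
      rw [show (4 : ℝ) ^ j = 2 ^ j * 2 ^ j by rw [← mul_pow]; norm_num]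
      split_ifs <;> ring
    rw [e1]
    have h1 : ∀ j ∈ range (k + 1), ∑ a ∈ iv (k - j) m.2.1, ∑ b ∈ iv (k - j) m.2.2,
        (if Q j (ix j y0, a, e - ix j y0 - a - b) then (4 : ℝ) ^ j else 0) ≤
        ∑ q ∈ Icc (-3 - (E : ℤ) - (m.1 + m.2.1 + m.2.2)) (E - (m.1 + m.2.1 + m.2.2)),
          ∑ a ∈ iv (k - j) m.2.1, ∑ r ∈ iv (k - j) q,
            (if Q j (ix j y0, a, r) then (4 : ℝ) ^ j else 0) := by
      intro j hj
      have hj' : j ≤ k := by rw [mem_range] at hj; omega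
      refine (sum_le_sum fun a ha => refl_win he (ix_mem hj' hy0) ha
        (F := fun r => if Q j (ix j y0, a, r) then (4 : ℝ) ^ j else 0)
        (fun r => by split_ifs <;> positivity)).trans (le_of_eq ?_)
      rw [sum_comm]
    refine (sum_le_sum h1).trans ?_
    rw [sum_comm]
    refine (sum_le_sum fun i _ => hQ y0 k hk _ _).trans (le_of_eq ?_)
    rw [sum_const, Int.card_Icc, nsmul_eq_mul]
    have e3 : (E - (m.1 + m.2.1 + m.2.2) + 1 - (-3 - (E : ℤ) - (m.1 + m.2.1 + m.2.2))).toNat =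
        2 * E + 4 := by omega
    rw [e3]
    push_cast
    ring
  unfold PL.cb
  rw [sum_product]
  simp only [sum_product]
  refine (sum_le_sum key).trans (le_of_eq ?_)
  rw [sum_const, PL.card_iv, nsmul_eq_mul]
  push_cast
  rw [show (8 : ℝ) ^ k = 2 ^ k * 4 ^ k by rw [← mul_pow]; norm_num]
  ring

/-- the cube over a square of the face `(x₀, x₁, x₂)` tied up to the window `J` -/
def nJ (o : ℤ) (J : ℕ) (Q : ℕ → Pt → Prop) (k : ℕ) (m : Pt) : Prop :=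
  ∃ j2 : ℤ, |j2 - (o - 2 - m.1 - m.2.1 - m.2.2)| ≤ J ∧ Q k (m.1, m.2.1, j2)

/-- **Packing, any window.** -/
theorem gp_nJ {n : ℕ} {Q : ℕ → Pt → Prop} {cq : ℝ} (hc : 0 ≤ cq) (hQ : QPack n Q cq) {o : ℤ}
    (ho : o = 1 ∨ o = -1) (J : ℕ) {K : ℕ} (hK : K ≤ n) :
    H28.AffI.GP (nJ o J Q) K ((2 * J + 1) * ((2 * J + 10) * cq)) := by
  intro k hk m
  have h1 : ∀ y ∈ PL.cb k m, ∑ j ∈ range (k + 1), (if nJ o J Q j (cx j y) then (1 : ℝ) else 0) ≤
      ∑ d ∈ Icc (-(J : ℤ)) J, ∑ j ∈ range (k + 1),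
        (if nE (o - 2 + d) Q j (cx j y) then (1 : ℝ) else 0) := by
    intro y _
    rw [sum_comm]
    refine sum_le_sum fun j _ => ?_
    have h0 : ∀ d ∈ Icc (-(J : ℤ)) J,
        (0 : ℝ) ≤ if nE (o - 2 + d) Q j (cx j y) then (1 : ℝ) else 0 := by
      intro d _
      split_ifs <;> norm_num
    by_cases h : nJ o J Q j (cx j y)
    · rw [if_pos h]
      obtain ⟨j2, hj, hq⟩ := h
      set d : ℤ := j2 - (o - 2 - (cx j y).1 - (cx j y).2.1 - (cx j y).2.2) with hd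
      have hm : d ∈ Icc (-(J : ℤ)) J := by
        rw [mem_Icc]
        exact abs_le.1 hj
      refine le_trans (le_of_eq ?_) (single_le_sum h0 hm)
      have e1 : o - 2 + d - (cx j y).1 - (cx j y).2.1 - (cx j y).2.2 = j2 := by
        rw [hd]
        ring
      have h2 : nE (o - 2 + d) Q j (cx j y) := by
        unfold nE
        rw [e1]
        exact hq
      rw [if_pos h2]
    · rw [if_neg h]
      exact sum_nonneg h0
  refine (sum_le_sum h1).trans ?_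
  rw [sum_comm]
  have h2 : ∀ d ∈ Icc (-(J : ℤ)) J, ∑ y ∈ PL.cb k m, ∑ j ∈ range (k + 1),
      (if nE (o - 2 + d) Q j (cx j y) then (1 : ℝ) else 0) ≤ (2 * J + 10) * cq * 8 ^ k := by
    intro d hd
    rw [mem_Icc] at hd
    have h3 := packE hQ (e := o - 2 + d) (E := J + 3) (by
      rw [abs_le]
      push_cast
      rcases ho with rfl | rfl <;> constructor <;> linarith [hd.1, hd.2]) (hk.trans hK) m
    refine h3.trans (le_of_eq ?_)
    push_cast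
    ring
  refine (sum_le_sum h2).trans (le_of_eq ?_)
  rw [sum_const, Int.card_Icc, nsmul_eq_mul]
  have e3 : ((J : ℤ) + 1 - -(J : ℤ)).toNat = 2 * J + 1 := by omega
  rw [e3]
  push_cast
  ring

section cls

variable {ι : Type} [Fintype ι] [DecidableEq ι]

/-- the alive cubes of a predicate -/
def Ag (p : H401.Num) (U : Tri) (K : ℕ) (Aq : ℕ → Pt → Prop) (k : ℕ) (m : Pt) : Prop :=
  k < K ∧ ¬ sst p.Lm U.2.1 K (k + 1) (2 ^ k * m.2.1) (2 ^ k * m.2.2) ∧ Aq k m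

theorem gp_Ag {p : H401.Num} {U : Tri} {K : ℕ} {Aq : ℕ → Pt → Prop} {P : ℝ}
    (hA : H28.AffI.GP Aq K P) : H28.AffI.GP (Ag p U K Aq) K P :=
  (show GPack Aq K P from hA).mono fun _ _ h => h.2.2

/-- **The energy of the stack on the affected cubes, one root.** -/
theorem aff_gen {p : H401.Num} {o : ℤ} {n K : ℕ} (hK : K ≤ n)
    {ez cP B : ℝ} (hB0 : 0 ≤ B) {F2 : ℕ → Pt → ℝ} {Q2 : ℕ → Pt → Prop}
    (hB2 : BSl n ez cP F2 Q2) (hez : 0 < ez) {Aq : ℕ → Pt → Prop}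
    (hA : H28.AffI.GP Aq K (4 * B)) {x : Pt} {s r P : ℝ}
    {U : Tri} {g : ℤ → ℤ → ℝ} {u v : ℤ → ℤ → ι → ℝ} (ht : 0 < p.t) (hs : 0 < s) (hr : 1 ≤ r)
    (hP : 0 ≤ P) (hc : Cls K x s r P U g u v) {h : ℕ} (hh : 1 ≤ h)
    (hPh : 2 * (4 * (4 * B)) ≤ h) (q : ℕ) (t : ℤ) :
    ∑ x0 ∈ iv K t, ∑ k ∈ Ico 0 K, ∑ x1 ∈ iv K (cx K x).1, ∑ z ∈ iv K (cx K x).2.2,
      (if Aq k (ix k x0, ix k x1, ix k z) then
        eT (cS p ez U K v F2 x0 (k + 1)) (thS p s r o K x u x0) k x1 z else 0) ≤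
      (16 * B * (beI p r * p.Lm) +
        4 * ((1 + h * q) * (P / (2 * p.lam s r)) +
          64 * B * p.Lm * (1 / 2) ^ q)) * (s * 8 ^ K) := by
  have hl := H401.Num.lam_pos (p := p) ht hs hr
  have hΛ : 0 < p.Lm := Real.rpow_pos_of_pos ht _
  have hbe : 0 ≤ beI p r := Real.rpow_nonneg (div_nonneg ht.le (by linarith)) _
  -- the theorem of the affected cells
  have main := H28.AffI.aff_W (M1 := (cx K x).1) (M2 := (cx K x).2.1) (M3 := (cx K x).2.2)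
    (G := GT u) (Kq := KT (p.lam s r) u) (fun x1 _ => tr_T hl K u x1)
    (A := Ag p U K Aq) (cP := 4 * B) (by linarith) (gp_Ag hA)
    (e := 1) zero_le_one (Z := Zf p ez U K F2) (lin_Zf hB2 hK hez) v
    (τ := 4 * p.Lm * s) (by positivity)
    (by
      intro k _ m h1 h3 hm
      obtain ⟨hkK, hal, -⟩ := hm
      have hA := H816.sq_alive (X := x.1) (Y := x.2.2) hΛ.le hkK (mem_iv.1 h1) (mem_iv.1 h3)
        hc.U_v2 hal
      refine le_trans (sum_le_sum fun a ha => sum_le_sum fun b hb => ?_) hA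
      refine hc.v_le a ?_ b ?_
      · exact H576.root_mem hkK.le h1 ha
      · exact H576.root_mem hkK.le h3 hb)
    (h := h) hh hPh q (o - 2) t (β := beI p r) hbe
  -- the left sides
  set f : ℕ → Pt → ℝ := fun k y => if Ag p U K Aq k (cx k y) then Zf p ez U K F2 k y ^ 2 *
    (v y.2.1 y.2.2 ⬝ᵥ (beI p r • (1 : Matrix ι ι ℝ) +
      Th (p.lam s r) K (cx K x).2.1 (KT (p.lam s r) u y.2.1) (o - 2) y.1 y.2.1 k (ix k y.2.2)) *ᵥ
        v y.2.1 y.2.2) else 0 with hf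
  have f0 : ∀ k y, 0 ≤ f k y := by
    intro k y
    rw [hf]
    simp only
    split_ifs
    · refine mul_nonneg (sq_nonneg _) (H420.quad_nonneg ?_ _)
      exact (PosSemidef.one.smul hbe).add (Th_psd (tr_T hl K u y.2.1) (o - 2) y.1 y.2.1 k _)
    · exact le_rfl
  have L1 : ∑ x0 ∈ iv K t, ∑ k ∈ Ico 0 K, ∑ x1 ∈ iv K (cx K x).1, ∑ z ∈ iv K (cx K x).2.2,
      (if Aq k (ix k x0, ix k x1, ix k z) then
        eT (cS p ez U K v F2 x0 (k + 1)) (thS p s r o K x u x0) k x1 z else 0) ≤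
      ∑ k ∈ range (K + 1), ∑ y ∈ cb K (t, (cx K x).1, (cx K x).2.2), f k y := by
    rw [sum_comm]
    have h1 : ∑ k ∈ Ico 0 K, ∑ y ∈ cb K (t, (cx K x).1, (cx K x).2.2), f k y ≤
        ∑ k ∈ range (K + 1), ∑ y ∈ cb K (t, (cx K x).1, (cx K x).2.2), f k y := by
      refine sum_le_sum_of_subset_of_nonneg ?_ fun k _ _ => sum_nonneg fun y _ => f0 k y
      intro k hk
      rw [mem_Ico] at hk
      rw [mem_range]
      omega
    refine le_trans (sum_le_sum fun k hk => ?_) h1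
    have hkK : k < K := (mem_Ico.1 hk).2
    have e1 : ∑ y ∈ cb K (t, (cx K x).1, (cx K x).2.2), f k y =
        ∑ x0 ∈ iv K t, ∑ x1 ∈ iv K (cx K x).1, ∑ z ∈ iv K (cx K x).2.2, f k (x0, x1, z) := by
      unfold PL.cb
      rw [sum_product]
      refine sum_congr rfl fun x0 _ => ?_
      rw [sum_product]
    rw [e1]
    refine sum_le_sum fun x0 _ => sum_le_sum fun x1 _ => sum_le_sum fun z _ => ?_
    split_ifs with hn
    · by_cases hst : sst p.Lm U.2.1 K (k + 1) (2 ^ k * ix k x1) (2 ^ k * ix k z)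
      · have hst' : sst p.Lm U.2.1 K (k + 1) x1 z := by
          have m1 : x1 ∈ iv k (ix k x1) := mem_iv.2 rfl
          have m2 : z ∈ iv k (ix k z) := mem_iv.2 rfl
          exact (H769.sst_congr (H769.ix_of_le (Nat.le_succ k) (H769.corner k m1))
            (H769.ix_of_le (Nat.le_succ k) (H769.corner k m2))).2 hst
        rw [eT_pt p ez U K v F2 s r o x u x0 hkK]
        have h0 : Zf p ez U K F2 k (x0, x1, z) = 0 := by
          unfold Zf
          rw [if_pos hkK, H816.kF_dead hst', mul_zero]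
        rw [h0, zero_pow two_ne_zero, zero_mul]
        exact f0 _ _
      · rw [eT_pt p ez U K v F2 s r o x u x0 hkK, hf]
        have hA : Ag p U K Aq k (cx k (x0, x1, z)) := ⟨hkK, hst, hn⟩
        simp only
        rw [if_pos hA]
    · exact f0 _ _
  refine L1.trans (main.trans ?_)
  -- the right side
  have hpot : ∀ a ∈ iv K (cx K x).1, ∀ w : ι → ℝ,
      w ⬝ᵥ GT u a K (cx K x).2.1 *ᵥ w ≤ P * (w ⬝ᵥ w) := by
    intro a ha w
    rw [H677.GT_form, ← H677.avg_iv]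
    exact hc.u_pot a ha w
  have hmass : ∑ x1 ∈ iv K (cx K x).1, ∑ x3 ∈ iv K (cx K x).2.2, v x1 x3 ⬝ᵥ v x1 x3 ≤
      s * 4 ^ K := by
    have h1 : ∑ x1 ∈ iv K (cx K x).1, ∑ x3 ∈ iv K (cx K x).2.2, v x1 x3 ⬝ᵥ v x1 x3 ≤
        ∑ x1 ∈ iv K (cx K x).1, ∑ x3 ∈ iv K (cx K x).2.2, U.2.1 (x1, x3) ^ 2 :=
      sum_le_sum fun a ha => sum_le_sum fun b hb => hc.v_le a ha b hb
    refine h1.trans ?_
    have h2 := hc.U_v2
    have e2 : A2 K U.2.1 x.1 x.2.2 = ((4 : ℝ) ^ K)⁻¹ *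
        ∑ x1 ∈ iv K (cx K x).1, ∑ x3 ∈ iv K (cx K x).2.2, U.2.1 (x1, x3) ^ 2 := by
      unfold PL.H315.A2 PL.H315.avg
      rw [H769.iv_pt, H769.iv_pt, card_product, PL.card_iv, PL.card_iv, sum_product]
      congr 2
      push_cast
      rw [← mul_pow]
      norm_num
    rw [e2, inv_mul_le_iff₀ (by positivity)] at h2
    linarith
  have hG : 2 ^ K * ∑ x1 ∈ iv K (cx K x).1, ∑ x3 ∈ iv K (cx K x).2.2,
      (2 * p.lam s r)⁻¹ * (v x1 x3 ⬝ᵥ GT u x1 K (cx K x).2.1 *ᵥ v x1 x3) ≤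
      P / (2 * p.lam s r) * (s * 8 ^ K) := by
    have h1 : ∑ x1 ∈ iv K (cx K x).1, ∑ x3 ∈ iv K (cx K x).2.2,
        (2 * p.lam s r)⁻¹ * (v x1 x3 ⬝ᵥ GT u x1 K (cx K x).2.1 *ᵥ v x1 x3) ≤
        ∑ x1 ∈ iv K (cx K x).1, ∑ x3 ∈ iv K (cx K x).2.2,
        (2 * p.lam s r)⁻¹ * (P * (v x1 x3 ⬝ᵥ v x1 x3)) :=
      sum_le_sum fun a ha => sum_le_sum fun b _ =>
        mul_le_mul_of_nonneg_left (hpot a ha _) (by positivity)
    simp only [← mul_sum] at h1 ⊢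
    have h2 := mul_le_mul_of_nonneg_left hmass
      (show 0 ≤ 2 ^ K * ((2 * p.lam s r)⁻¹ * P) by positivity)
    have e8 : (8 : ℝ) ^ K = 2 ^ K * 4 ^ K := by rw [← mul_pow]; norm_num
    calc _ ≤ 2 ^ K * ((2 * p.lam s r)⁻¹ * (P *
          ∑ x1 ∈ iv K (cx K x).1, ∑ x3 ∈ iv K (cx K x).2.2, v x1 x3 ⬝ᵥ v x1 x3)) :=
          mul_le_mul_of_nonneg_left h1 (by positivity)
      _ = 2 ^ K * ((2 * p.lam s r)⁻¹ * P) *
          ∑ x1 ∈ iv K (cx K x).1, ∑ x3 ∈ iv K (cx K x).2.2, v x1 x3 ⬝ᵥ v x1 x3 := by ring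
      _ ≤ _ := h2
      _ = _ := by
          rw [e8]
          field_simp
  have hG' := mul_le_mul_of_nonneg_left hG (show (0 : ℝ) ≤ 4 * (1 + h * q) by positivity)
  refine le_of_eq_of_le ?_ (add_le_add_left hG'
    (16 * B * (beI p r * p.Lm) * (s * 8 ^ K) +
      4 * (64 * B * p.Lm * (1 / 2) ^ q) * (s * 8 ^ K)) |>.trans (le_of_eq ?_))
  · ring
  · ring

end cls

/-- **The number of a packed predicate**: the constant depends on the packing only. -/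
theorem num_gen {ι : Type} [Fintype ι] [DecidableEq ι] {p : H401.Num} {o : ℤ} {n K : ℕ}
    (hK : K ≤ n) {ez cP B : ℝ} (hB0 : 0 ≤ B) {F2 : ℕ → Pt → ℝ} {Q2 : ℕ → Pt → Prop}
    (hB2 : BSl n ez cP F2 Q2) (hez : 0 < ez) {Aq : ℕ → Pt → Prop}
    (hA : H28.AffI.GP Aq K (4 * B)) {x : Pt} {s r : ℝ} {U : Tri} {g : ℤ → ℤ → ℝ}
    {u v : ℤ → ℤ → ι → ℝ} (ht : 0 < p.t) (ht1 : p.t ≤ 1) (hs : 0 < s) (hr : 1 ≤ r)
    (he0 : 0 < p.e0) (he1 : p.e0 ≤ 1) (hcc : p.c ≤ p.e0 / 2) {δ : ℝ} (hd : p.d ≤ δ / 2)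
    (hd0 : 0 < p.d) {L : ℝ} (hL : 1 ≤ L) (hc : Cls K x s r (L * p.t ^ (2 - p.c) * √s) U g u v)
    {C2 : ℝ} (hC2 : 0 ≤ C2) {J h : ℕ} (hh : 1 ≤ h) (hPh : 2 * (4 * (4 * B)) ≤ h)
    (hJ1 : 2 * (p.t / r) ^ (-3 : ℝ) ≤ 2 ^ J)
    (hJ2 : ((J : ℝ) + 1) ^ 3 ≤ C2 * (p.t / r) ^ (-(δ / 2))) :
    ∑ t ∈ rt (cx K x), ∑ x0 ∈ iv K t, ∑ k ∈ Ico 0 K, ∑ x1 ∈ iv K (cx K x).1,
      ∑ z ∈ iv K (cx K x).2.2, (if Aq k (ix k x0, ix k x1, ix k z) then
        eT (cS p ez U K v F2 x0 (k + 1)) (thS p s r o K x u x0) k x1 z else 0) ≤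
      3 * (16 * B + 4 * (h + 1) * C2 * L + 256 * B) * (p.t / r) ^ (-δ) * (s * 8 ^ K) *
        (p.t / r) ^ (p.e0 / 2) := by
  have hP : 0 ≤ L * p.t ^ (2 - p.c) * √s :=
    mul_nonneg (mul_nonneg (by linarith) (Real.rpow_nonneg ht.le _)) (Real.sqrt_nonneg _)
  have hnum := num_le ht ht1 hs hr he0 he1 hcc hd hd0 hL hC2 (h := h) hJ1 hJ2 (B := B) hB0
  have one := fun t0 : ℤ => (aff_gen (o := o) hK hB0 hB2 hez hA ht hs hr hP hc hh hPh J t0).trans
    (mul_le_mul_of_nonneg_right hnum (by positivity))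
  refine (sum_le_sum fun t0 _ => one t0).trans ?_
  rw [sum_const, nsmul_eq_mul, card_rt]
  refine le_of_eq ?_
  ring

/-- **crB**: the stack on the cubes next to an affected square of the second slot, window `W`. -/
def CrBW (W : ℕ) : Prop := PairQ fun _ _ _ p _ ez _ F2 _ o K x s r U _ u v _ _ Q3 X =>
  ∑ t ∈ rt (cx K x), ∑ x0 ∈ iv K t, ∑ k ∈ Ico 0 K, ∑ x1 ∈ iv K (cx K x).1,
    ∑ z ∈ iv K (cx K x).2.2,
      (if ∃ j2 : ℤ, |j2 - (o - 2 - ix k x0 - ix k x1 - ix k z)| ≤ W ∧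
          qB p U K Q3 k (ix k x0) (ix k x1) j2 then
        eT (cS p ez U K v F2 x0 (k + 1)) (thS p s r o K x u x0) k x1 z else 0) ≤
    X * (s * 8 ^ K) * (p.t / r) ^ (p.e0 / 2)

theorem crB (W : ℕ) : CrBW W := by
  intro a _ _
  refine ⟨1, one_pos, fun e0 he0 he01 => ⟨1, one_pos, fun k8 _ _ => ⟨1, one_pos,
    fun k3 _ _ δ hδ => ?_⟩⟩⟩
  obtain ⟨C2, hC2, hJ⟩ := H808.exists_levels (δ := δ / 2) (by positivity)
  refine ⟨e0 / 2, δ / 2, by positivity, by positivity,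
    fun c _ hcc d hd hdd Kt e cq L hK he hcq hL => ?_⟩
  set B : ℝ := (2 * W + 1) * ((2 * W + 10) * (cq + 2)) / 4 with hB
  have hB0 : 0 ≤ B := by positivity
  obtain ⟨h, hh, hh2⟩ : ∃ h : ℕ, 1 ≤ h ∧ 2 * (4 * (4 * B)) ≤ (h : ℝ) := by
    refine ⟨⌈2 * (4 * (4 * B))⌉₊ + 1, by omega, ?_⟩
    push_cast
    have := Nat.le_ceil (2 * (4 * (4 * B)))
    linarith
  refine ⟨3 * (16 * B + 4 * (h + 1) * C2 * L + 256 * B), by positivity, ?_⟩
  intro t ht ht1 n ez F1 F2 F3 _ _ _ o ho K hKn x ι _ _ s r U g u v hs hr hcls Q1 Q2 Q3 q1 q2 q3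
    hez
  have hr0 : 0 < r := by linarith
  obtain ⟨J, hJ1, hJ2⟩ := hJ (t / r) (div_pos ht hr0) ((div_le_one hr0).2 (ht1.trans hr))
  set p : H401.Num := ⟨a, e0, k8, k3, c, d, Kt, e, cq, L, 1, t⟩ with hp
  have hq3 : QPack n (fun k q => QD (fun k x y => sst p.Lm U.1 K k x y) Q3 k q.1 q.2.1 q.2.2)
      (cq + 2) := fun x0 K' hK' r s => QD_pack (Dd_sst p.Lm U.1 K) q3 x0 hK' r s
  have hA := gp_nJ (by linarith) hq3 ho W hKn
  have e4 : (2 * (W : ℝ) + 1) * ((2 * W + 10) * (cq + 2)) = 4 * B := by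
    rw [hB]
    ring
  rw [e4] at hA
  exact num_gen (p := p) (o := o) hKn hB0 q2 hez hA ht ht1 hs hr he0 he01 hcc hdd hd hL
    hcls.toCls hC2 hh hh2 hJ1 hJ2

end

end Vale.Agent.P141.H989.CrB
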