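import Vale.Agent.P141.H989.CrB
import Vale.Agent.P141.H652.NumB

/-!
# P141, line (A), increasing part: the number `CRB` of the fixed-`x₀` theorem

Marks: the row pieces of the second slot which change, next to the node of scale `k + 1`.
-/

namespace Vale.Agent.P141.H989.CrB

open Finset Matrix
open Vale.Agent.P141.PL (Pt iv cb cx ix mem_iv ix_ix)
open Vale.Agent.P141.PL.H315 (Tri A2 avg)
open Vale.Agent.P141.H401 (StQ qB)
open Vale.Agent.P141.H408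
open Vale.Agent.P141.H505.Sk1 (W3 eT Ch)
open Vale.Agent.P141.H677 (cP rt)
open Vale.Agent.P141.H808 (cS aS thS)

noncomputable section

open scoped Classical

theorem ix_two (k : ℕ) (y : ℤ) : 2 * ix (k + 1) y ≤ ix k y ∧ ix k y ≤ 2 * ix (k + 1) y + 1 := by
  have h : ix 1 (ix k y) = ix (k + 1) y := by rw [ix_ix, add_comm]
  rw [← h]
  unfold PL.ix
  omega

/-- the tie at the scale `k + 1` gives the tie at the scale `k` up to three cells -/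
theorem near_win {o : ℤ} (ho : o = 1 ∨ o = -1) {k : ℕ} {x0 x1 z w : ℤ}
    (h : ix (k + 1) w = cP o x0 (k + 1) - ix (k + 1) x1 - ix (k + 1) z) :
    |ix k w - (o - 2 - ix k x0 - ix k x1 - ix k z)| ≤ ((3 : ℕ) : ℤ) := by
  have h0 := ix_two k x0
  have h1 := ix_two k x1
  have h2 := ix_two k z
  have h3 := ix_two k w
  unfold H677.cP at h
  rw [abs_le]
  push_cast
  rcases ho with rfl | rfl <;> constructor <;> omega

/-- **The number `CRB` for any marks of the second slot inside its affected squares.** -/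
def CRBm (Pb : ∀ (ι : Type) [Fintype ι] [DecidableEq ι], H401.Num → ℝ → ℝ → Tri → ℕ →
    (ℤ → ℤ → ι → ℝ) → (ℕ → Pt → ℝ) → (ℕ → Pt → Prop) → ℤ → ℕ → ℤ → ℤ → Prop) : Prop :=
  PairQ fun ι _ _ p _ ez _ F2 F3 o K x s r U _ u v _ _ Q3 X =>
  ∑ t ∈ rt (cx K x), ∑ x0 ∈ iv K t, ∑ k ∈ Ico 0 K, ∑ x1 ∈ iv K (cx K x).1,
    ∑ z ∈ iv K (cx K x).2.2,
      (if ∃ w : ℤ, ix (k + 1) w = cP o x0 (k + 1) - ix (k + 1) x1 - ix (k + 1) z ∧
          Pb ι p s r U K u F3 Q3 x0 k w (ix k x1) then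
        eT (cS p ez U K v F2 x0 (k + 1)) (thS p s r o K x u x0) k x1 z else 0) ≤
    X * (s * 8 ^ K) * (p.t / r) ^ (p.e0 / 2)

theorem crBm {Pb : ∀ (ι : Type) [Fintype ι] [DecidableEq ι], H401.Num → ℝ → ℝ → Tri → ℕ →
    (ℤ → ℤ → ι → ℝ) → (ℕ → Pt → ℝ) → (ℕ → Pt → Prop) → ℤ → ℕ → ℤ → ℤ → Prop}
    (hPb : ∀ (ι : Type) [Fintype ι] [DecidableEq ι] (p : H401.Num) (s r : ℝ) (U : Tri) (K : ℕ)
      (u : ℤ → ℤ → ι → ℝ) (F3 : ℕ → Pt → ℝ) (Q3 : ℕ → Pt → Prop) (x0 : ℤ) (k : ℕ) (w h : ℤ),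
      k < K → Pb ι p s r U K u F3 Q3 x0 k w h → qB p U K Q3 k (ix k x0) h (ix k w)) :
    CRBm Pb := by
  intro a ha ha1
  obtain ⟨es, hes, H⟩ := crB 3 a ha ha1
  refine ⟨es, hes, fun e0 he0 he0' => ?_⟩
  obtain ⟨k8s, hk8s, H⟩ := H e0 he0 he0'
  refine ⟨k8s, hk8s, fun k8 hk8 hk8' => ?_⟩
  obtain ⟨k3s, hk3s, H⟩ := H k8 hk8 hk8'
  refine ⟨k3s, hk3s, fun k3 hk3 hk3' δ hδ => ?_⟩
  obtain ⟨c1, d0, hc1, hd0, H⟩ := H k3 hk3 hk3' δ hδ
  refine ⟨c1, d0, hc1, hd0, fun c hc hcc d hd hdd Kt e cq L hK he hcq hL => ?_⟩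
  obtain ⟨C, hC, H⟩ := H c hc hcc d hd hdd Kt e cq L hK he hcq hL
  refine ⟨C, hC, ?_⟩
  intro t ht ht1 n ez F1 F2 F3 h1 h3 h2 o ho K hKn x ι _ _ s r U g u v hs hr hcls Q1 Q2 Q3 q1 q2 q3
    hez
  have h4 := H t ht ht1 n ez F1 F2 F3 h1 h3 h2 o ho K hKn x ι s r U g u v hs hr hcls Q1 Q2 Q3 q1
    q2 q3 hez
  refine le_trans ?_ h4
  refine sum_le_sum fun t0 _ => sum_le_sum fun x0 _ => sum_le_sum fun k hk =>
    sum_le_sum fun x1 _ => sum_le_sum fun z _ => ?_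
  have hkK : k < K := (mem_Ico.1 hk).2
  have hpd : ∀ x0 x1 k m, (thS ⟨a, e0, k8, k3, c, d, Kt, e, cq, L, 1, t⟩ s r o K x u x0 x1 k
      m).PosDef := fun x0 x1 k m =>
    H808.thS_pd (p := ⟨a, e0, k8, k3, c, d, Kt, e, cq, L, 1, t⟩) ht hs hr o K x u x0 x1 k m
  split_ifs with g1 g2
  · exact le_rfl
  · exfalso
    obtain ⟨w, hw, hp⟩ := g1
    exact g2 ⟨ix k w, near_win ho hw, hPb ι _ s r U K u F3 Q3 x0 k w _ hkK hp⟩
  · exact H808.eT_nonneg (hpd x0) _ k x1 z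
  · exact le_rfl

/-- the row pieces of the second slot which change -/
def PbS {ι : Type} [Fintype ι] [DecidableEq ι] (p : H401.Num) (s r : ℝ) (U : Tri) (K : ℕ)
    (u : ℤ → ℤ → ι → ℝ) (F3 : ℕ → Pt → ℝ) (Q3 : ℕ → Pt → Prop) (x0 : ℤ) (k : ℕ) (w h : ℤ) :
    Prop := ∃ x ∈ iv k h, H652.bS p s r U K u F3 Q3 x0 (k + 1) x w ≠ H652.bS p s r U K u F3 Q3 x0 k x w

/-- it is inside the affected squares -/
theorem PbS_aff {ι : Type} [Fintype ι] [DecidableEq ι] {p : H401.Num} {s r : ℝ} {U : Tri} {K : ℕ}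
    {u : ℤ → ℤ → ι → ℝ} {F3 : ℕ → Pt → ℝ} {Q3 : ℕ → Pt → Prop} {x0 : ℤ} {k : ℕ} (hk : k < K)
    {w h : ℤ} (hp : PbS p s r U K u F3 Q3 x0 k w h) : qB p U K Q3 k (ix k x0) h (ix k w) := by
  by_contra hq
  obtain ⟨x, hx, hne⟩ := hp
  apply hne
  have e1 : H652.bS p s r U K u F3 Q3 x0 (k + 1) = H401.cb p s r U K u F3 Q3 x0 (k + 1) := by
    show H401.cb p s r U K u F3 Q3 x0 (min (k + 1) K) = _
    rw [min_eq_left (by omega : k + 1 ≤ K)]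
  have e2 : H652.bS p s r U K u F3 Q3 x0 k = H401.cb p s r U K u F3 Q3 x0 k := by
    show H401.cb p s r U K u F3 Q3 x0 (min k K) = _
    rw [min_eq_left hk.le]
  rw [e1, e2]
  exact H80.lowG_off (Q := fun k n m => qB p U K Q3 k (ix k x0) n m) hq hx (mem_iv.2 rfl)

/-- **`CRB` for the changes of the second slot.** -/
theorem cRBs : CRBm fun _ _ _ p s r U K u F3 Q3 x0 k w h => PbS p s r U K u F3 Q3 x0 k w h :=
  crBm fun _ _ _ _ _ _ _ _ _ _ _ _ _ _ _ hk hp => PbS_aff hk hp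

end

end Vale.Agent.P141.H989.CrB
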